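import Vale.Agent.P141.H579.LowA
import Vale.Agent.P141.H498.EnAll

/-!
# P141, line (A), top: (E) with the `L²` slot on the edge `13`, weight with a preferred term

`pos2K`: two uniform slots on the edges `12` and `23`, an arbitrary slot on the edge `13`; the cost
is at most the price times the cardinal times `k^(-8ε) X13 + k pw3`, for every `0 < k ≤ 1`.  In the
bound of `H498.two_le` the term with the `L²` norm on the edge of the arbitrary slot carries almost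
all the mass (`norms_leK`).
-/

namespace Vale.Agent.P141.H579

open Finset Filter Topology Vale.Agent.P141.PL
open Vale.Agent.P141.PL.H315 (cube3 atm Tri e12 e13 e23 card_cube3)
open Vale.Agent.P141.PL.H560 (cbs bx0)
open Vale.Agent.P141.PL.H317 (crn)
open Vale.Agent.P141.H922 (n2 n4 nN pw3 wP n2_nonneg n4_nonneg n2_e12 n2_e13 n2_e23
  n4_e12 n4_e13 n4_e23 nN_e12 nN_e13 nN_e23)
open Vale.Agent.P141.H48 (EngF PthSt OwnSt SlM BSl Mo4 cst cG cG_nonneg prE cE cE_nonneg GS DS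
  GS_nonneg DS_nonneg s2 s4n s2_nonneg s4n_nonneg sum_own cgen gen_le_cgen cgen_le big4 big2 ep0
  ep1 cos0 cz sum_cz cst_crn US ES MoUni MoTri Lam0 one_le_Lam0)
open Vale.Agent.P141.H498 (two snd prf pwn pwn_nonneg norms_le fac1 fac2 fac3 fac4 sum_le_two
  cEng cEng_nonneg moUni moTri)

noncomputable section

open scoped Classical

/-! ### The weighted mean -/

/-- the term with the `L²` norm on the third edge -/
def x1n (n12 m12 n13 m13 n23 : ℝ) : ℝ := √(n12 * m12) * √(n13 * m13) * n23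

theorem amgmK {θ k X1 X2 X3 : ℝ} (hθ : 0 < θ) (hθ' : θ ≤ 1 / 8) (hk : 0 < k) (hk1 : k ≤ 1)
    (x1 : 0 ≤ X1) (x2 : 0 ≤ X2) (x3 : 0 ≤ X3) :
    X1 ^ (1 - 4 * θ) * X2 ^ (2 * θ) * X3 ^ (2 * θ) ≤
      k ^ (-(8 * θ)) * X1 + k * (X1 + X2 + X3) := by
  have e4 : 0 < 1 - 4 * θ := by linarith
  set p : ℝ := 4 * θ / (1 - 4 * θ) with hp
  have hp1 : p * (1 - 4 * θ) = 4 * θ := by rw [hp]; field_simp
  have hp8 : p ≤ 8 * θ := by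
    rw [hp, div_le_iff₀ e4]
    nlinarith
  have hkp : 0 ≤ k ^ (-p) := Real.rpow_nonneg hk.le _
  have key := Real.geom_mean_le_arith_mean3_weighted (w₁ := 1 - 4 * θ) (w₂ := 2 * θ)
    (w₃ := 2 * θ) e4.le (by linarith) (by linarith) (mul_nonneg hkp x1) (mul_nonneg hk.le x2)
    (mul_nonneg hk.le x3) (by ring)
  have h3 : (k ^ (-p) * X1) ^ (1 - 4 * θ) * (k * X2) ^ (2 * θ) * (k * X3) ^ (2 * θ) =
      X1 ^ (1 - 4 * θ) * X2 ^ (2 * θ) * X3 ^ (2 * θ) := by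
    rw [Real.mul_rpow hkp x1, Real.mul_rpow hk.le x2, Real.mul_rpow hk.le x3,
      ← Real.rpow_mul hk.le]
    have h4 : k ^ (-p * (1 - 4 * θ)) * k ^ (2 * θ) * k ^ (2 * θ) = 1 := by
      rw [← Real.rpow_add hk, ← Real.rpow_add hk, show -p * (1 - 4 * θ) + 2 * θ + 2 * θ = 0 by
        linarith, Real.rpow_zero]
    calc _ = (k ^ (-p * (1 - 4 * θ)) * k ^ (2 * θ) * k ^ (2 * θ)) *
          (X1 ^ (1 - 4 * θ) * X2 ^ (2 * θ) * X3 ^ (2 * θ)) := by ring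
      _ = _ := by rw [h4, one_mul]
  rw [h3] at key
  refine key.trans ?_
  have h5 : k ^ (-p) ≤ k ^ (-(8 * θ)) := Real.rpow_le_rpow_of_exponent_ge hk hk1 (by linarith)
  have h6 : (1 - 4 * θ) * (k ^ (-p) * X1) ≤ k ^ (-(8 * θ)) * X1 := by
    have h7 : k ^ (-p) * X1 ≤ k ^ (-(8 * θ)) * X1 := mul_le_mul_of_nonneg_right h5 x1
    have h8 : 0 ≤ k ^ (-p) * X1 := mul_nonneg hkp x1
    nlinarith
  have h9 : 2 * θ * (k * X2) ≤ k * X2 := by nlinarith [mul_nonneg hk.le x2]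
  have h10 : 2 * θ * (k * X3) ≤ k * X3 := by nlinarith [mul_nonneg hk.le x3]
  have h11 : 0 ≤ k * X1 := mul_nonneg hk.le x1
  linarith

/-- the powers of the norms in the second term -/
theorem norms_leK {θ k n12 m12 n13 m13 n23 m23 : ℝ} (hθ : 0 < θ) (hθ' : θ ≤ 1 / 8) (hk : 0 < k)
    (hk1 : k ≤ 1) (h12 : 0 ≤ n12) (k12 : 0 ≤ m12) (h13 : 0 ≤ n13) (k13 : 0 ≤ m13) (h23 : 0 ≤ n23)
    (k23 : 0 ≤ m23) :
    (n12 * m12) ^ (1 / 2 - θ) * n12 ^ (2 * θ) * ((n13 * m13) ^ (1 / 2 - θ) * n13 ^ (2 * θ)) *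
      ((n23 * m23) ^ (2 * θ) * n23 ^ (1 - 4 * θ)) ≤
        k ^ (-(8 * θ)) * x1n n12 m12 n13 m13 n23 + k * pwn n12 m12 n13 m13 n23 m23 := by
  have e : pwn n12 m12 n13 m13 n23 m23 = √(n12 * m12) * √(n13 * m13) * n23 +
    √(n12 * m12) * √(n23 * m23) * n13 + √(n13 * m13) * √(n23 * m23) * n12 := rfl
  rw [e]
  unfold x1n
  set X1 := √(n12 * m12) * √(n13 * m13) * n23 with hX1
  set X2 := √(n12 * m12) * √(n23 * m23) * n13 with hX2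
  set X3 := √(n13 * m13) * √(n23 * m23) * n12 with hX3
  have x1 : 0 ≤ X1 := by positivity
  have x2 : 0 ≤ X2 := by positivity
  have x3 : 0 ≤ X3 := by positivity
  have a0 : 0 ≤ n12 * m12 := by positivity
  have b0 : 0 ≤ n13 * m13 := by positivity
  have c0 : 0 ≤ n23 * m23 := by positivity
  have key := amgmK hθ hθ' hk hk1 x1 x2 x3
  have h3 : X1 ^ (1 - 4 * θ) * X2 ^ (2 * θ) * X3 ^ (2 * θ) =
      (n12 * m12) ^ (1 / 2 - θ) * n12 ^ (2 * θ) * ((n13 * m13) ^ (1 / 2 - θ) * n13 ^ (2 * θ)) *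
      ((n23 * m23) ^ (2 * θ) * n23 ^ (1 - 4 * θ)) := by
    have s1 : ∀ x p : ℝ, 0 ≤ x → (√x) ^ p = x ^ (p / 2) := by
      intro x p hx
      rw [Real.sqrt_eq_rpow, ← Real.rpow_mul hx]
      congr 1; ring
    rw [hX1, hX2, hX3]
    rw [Real.mul_rpow (by positivity) h23, Real.mul_rpow (Real.sqrt_nonneg _) (Real.sqrt_nonneg _),
      Real.mul_rpow (by positivity) h13, Real.mul_rpow (Real.sqrt_nonneg _) (Real.sqrt_nonneg _),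
      Real.mul_rpow (by positivity) h12, Real.mul_rpow (Real.sqrt_nonneg _) (Real.sqrt_nonneg _)]
    simp only [s1 _ _ a0, s1 _ _ b0, s1 _ _ c0]
    have f1 : ∀ x : ℝ, 0 ≤ x → x ^ (1 / 2 - θ) = x ^ ((1 - 4 * θ) / 2) * x ^ (2 * θ / 2) := by
      intro x hx
      rw [← Real.rpow_add_of_nonneg hx (by linarith) (by linarith)]
      congr 1; ring
    have f2 : (n23 * m23) ^ (2 * θ) = (n23 * m23) ^ (2 * θ / 2) * (n23 * m23) ^ (2 * θ / 2) := by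
      rw [← Real.rpow_add_of_nonneg c0 (by linarith) (by linarith)]
      congr 1; ring
    rw [f1 _ a0, f1 _ b0, f2]
    ring
  rw [← h3]
  exact key

/-- the two terms in the weight with the preferred term -/
theorem two_leK {θ k V c tA tB eA eB eC n12 m12 n13 m13 n23 m23 GA GB GC DA DB DC : ℝ}
    (hθ : 0 < θ) (hθ' : θ ≤ 1 / 8) (hk : 0 < k) (hk1 : k ≤ 1)
    (hV : 0 ≤ V) (hc : 0 ≤ c) (htA : 0 ≤ tA) (htB : 0 ≤ tB)
    (heA : 0 ≤ eA) (heB : 0 ≤ eB) (heC : 0 ≤ eC)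
    (h12 : 0 ≤ n12) (k12 : 0 ≤ m12) (h13 : 0 ≤ n13) (k13 : 0 ≤ m13) (h23 : 0 ≤ n23)
    (k23 : 0 ≤ m23)
    (pGA : 0 ≤ GA) (pGB : 0 ≤ GB) (pGC : 0 ≤ GC) (pDA : 0 ≤ DA) (pDB : 0 ≤ DB) (pDC : 0 ≤ DC)
    (hGA : GA ≤ V * (c * (tA ^ 2 * eA * (n12 * m12) ^ 2)))
    (hGA' : GA ≤ V * (c * (eA ^ 2 * (n12 * m12) ^ 2)))
    (hGB : GB ≤ V * (c * (tB ^ 2 * eB * (n13 * m13) ^ 2)))
    (hGB' : GB ≤ V * (c * (eB ^ 2 * (n13 * m13) ^ 2)))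
    (hGC : GC ≤ V * (c * (eC ^ 2 * (n23 * m23) ^ 2)))
    (hDA : DA ≤ V * (c * (eA * n12 ^ 2))) (hDB : DB ≤ V * (c * (eB * n13 ^ 2)))
    (hDC : DC ≤ V * (c * (eC * n23 ^ 2))) :
    two θ GA GB GC DA DB DC ≤ (1 + θ⁻¹) * (V * c) *
      ((tA * tB) ^ (1 / 2 - θ) * (eA * eB) ^ (1 / 4 + θ / 2) * eC ^ (1 / 2 : ℝ)) *
        (k ^ (-(8 * θ)) * x1n n12 m12 n13 m13 n23 + k * pwn n12 m12 n13 m13 n23 m23) := by
  have hθ4 : θ ≤ 1 / 4 := by linarith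
  have hVc : 0 ≤ V * c := by positivity
  have a0 : 0 ≤ n12 * m12 := by positivity
  have b0 : 0 ≤ n13 * m13 := by positivity
  have c0 : 0 ≤ n23 * m23 := by positivity
  set Y : ℝ := (tA * tB) ^ (1 / 2 - θ) * (eA * eB) ^ (1 / 4 + θ / 2) * eC ^ (1 / 2 : ℝ) with hY
  have hY0 : 0 ≤ Y := by positivity
  have hYe : Y = tA ^ (1 / 2 - θ) * tB ^ (1 / 2 - θ) * (eA ^ (1 / 4 + θ / 2) *
      eB ^ (1 / 4 + θ / 2)) * eC ^ (1 / 2 : ℝ) := by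
    rw [hY, Real.mul_rpow htA htB, Real.mul_rpow heA heB]
  have hP := pwn_nonneg (m12 := m12) (m13 := m13) (m23 := m23) h12 h13 h23
  have hX : 0 ≤ x1n n12 m12 n13 m13 n23 := by unfold x1n; positivity
  set W : ℝ := k ^ (-(8 * θ)) * x1n n12 m12 n13 m13 n23 + k * pwn n12 m12 n13 m13 n23 m23 with hW
  -- the first term
  have f1 : GA ^ (1 / 4 : ℝ) * GB ^ (1 / 4 : ℝ) * DC ^ (1 / 2 : ℝ) ≤
      V * c * Y * W := by
    have u1 := fac1 hθ hθ4 pGA hV hc htA heA a0 hGA hGA'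
    have u2 := fac1 hθ hθ4 pGB hV hc htB heB b0 hGB hGB'
    have u3 := fac3 pDC hV hc heC h23 hDC
    have u4 := mul_le_mul (mul_le_mul u1 u2 (Real.rpow_nonneg pGB _) (by positivity)) u3
      (Real.rpow_nonneg pDC _) (by positivity)
    refine u4.trans ?_
    have k1 : V * c = (V * c) ^ (1 / 4 : ℝ) * (V * c) ^ (1 / 4 : ℝ) * (V * c) ^ (1 / 2 : ℝ) := by
      rw [← Real.rpow_add_of_nonneg hVc (by norm_num) (by norm_num),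
        ← Real.rpow_add_of_nonneg hVc (by norm_num) (by norm_num)]
      norm_num
    have k2 : √(n12 * m12) * √(n13 * m13) * n23 ≤ W := by
      have k3 : x1n n12 m12 n13 m13 n23 ≤ k ^ (-(8 * θ)) * x1n n12 m12 n13 m13 n23 :=
        le_mul_of_one_le_left hX (Real.one_le_rpow_of_pos_of_le_one_of_nonpos hk hk1 (by linarith))
      have k4 : 0 ≤ k * pwn n12 m12 n13 m13 n23 m23 := mul_nonneg hk.le hP
      unfold x1n at k3 hX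
      rw [hW]
      unfold x1n
      linarith
    calc _ = ((V * c) ^ (1 / 4 : ℝ) * (V * c) ^ (1 / 4 : ℝ) * (V * c) ^ (1 / 2 : ℝ)) * Y *
          (√(n12 * m12) * √(n13 * m13) * n23) := by rw [hYe]; ring
      _ = V * c * Y * (√(n12 * m12) * √(n13 * m13) * n23) := by rw [← k1]
      _ ≤ _ := mul_le_mul_of_nonneg_left k2 (by positivity)
  -- the second term
  have f2 : snd θ GA GB GC DA DB DC ≤ V * c * Y * W := by
    have u1 := fac2 hθ hθ4 pGA pDA hV hc htA heA h12 a0 hGA hDA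
    have u2 := fac2 hθ hθ4 pGB pDB hV hc htB heB h13 b0 hGB hDB
    have u3 := fac4 hθ hθ4 pGC pDC hV hc heC h23 c0 hGC hDC
    have u4 := mul_le_mul (mul_le_mul u1 u2 (by positivity) (by positivity)) u3
      (by positivity) (by positivity)
    have e1 : snd θ GA GB GC DA DB DC = GA ^ (1 / 4 - θ / 2) * DA ^ θ *
        (GB ^ (1 / 4 - θ / 2) * DB ^ θ) * (GC ^ θ * DC ^ (1 / 2 - 2 * θ)) := by
      unfold snd; ring
    rw [e1]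
    refine u4.trans ?_
    have k1 : V * c = (V * c) ^ (1 / 4 + θ / 2) * (V * c) ^ (1 / 4 + θ / 2) *
        (V * c) ^ (1 / 2 - θ) := by
      rw [← Real.rpow_add_of_nonneg hVc (by linarith) (by linarith),
        ← Real.rpow_add_of_nonneg hVc (by linarith) (by linarith)]
      rw [show 1 / 4 + θ / 2 + (1 / 4 + θ / 2) + (1 / 2 - θ) = 1 by ring, Real.rpow_one]
    have k2 := norms_leK hθ hθ' hk hk1 h12 k12 h13 k13 h23 k23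
    calc _ = ((V * c) ^ (1 / 4 + θ / 2) * (V * c) ^ (1 / 4 + θ / 2) *
        (V * c) ^ (1 / 2 - θ)) * Y * ((n12 * m12) ^ (1 / 2 - θ) * n12 ^ (2 * θ) *
          ((n13 * m13) ^ (1 / 2 - θ) * n13 ^ (2 * θ)) *
            ((n23 * m23) ^ (2 * θ) * n23 ^ (1 - 4 * θ))) := by rw [hYe]; ring
      _ = V * c * Y * ((n12 * m12) ^ (1 / 2 - θ) * n12 ^ (2 * θ) *
          ((n13 * m13) ^ (1 / 2 - θ) * n13 ^ (2 * θ)) *
            ((n23 * m23) ^ (2 * θ) * n23 ^ (1 - 4 * θ))) := by rw [← k1]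
      _ ≤ _ := mul_le_mul_of_nonneg_left k2 (by positivity)
  unfold two
  calc _ ≤ V * c * Y * W + θ⁻¹ * (V * c * Y * W) :=
        add_le_add f1 (mul_le_mul_of_nonneg_left f2 (by positivity))
    _ = _ := by ring

/-! ### One generation -/

theorem wK_sq (k1 k2 : ℝ) (K : ℕ) (x : Pt) (u : Tri) : wK k1 k2 (cube3 K x) u = 8 ^ K *
    (k1 * x1n (s2 K x.1 x.2.1 u.1) (s4n K x.1 x.2.1 u.1) (s2 K x.2.1 x.2.2 u.2.2)
      (s4n K x.2.1 x.2.2 u.2.2) (s2 K x.1 x.2.2 u.2.1) +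
    k2 * pwn (s2 K x.1 x.2.1 u.1) (s4n K x.1 x.2.1 u.1) (s2 K x.2.1 x.2.2 u.2.2)
      (s4n K x.2.1 x.2.2 u.2.2) (s2 K x.1 x.2.2 u.2.1) (s4n K x.1 x.2.2 u.2.1)) := by
  unfold wK X13 pw3 pwn x1n s2 s4n
  rw [card_cube3, nN_e12, nN_e13, nN_e23, n2_e12, n2_e13, n2_e23]
  unfold nN
  push_cast
  ring

/-- **One generation.** -/
theorem gen_oneK {Λ C : ℝ} (hΛ : 1 ≤ Λ) (hC : 0 ≤ C) (hE : EngF C) (hP : PthSt Λ) (hO : OwnSt Λ)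
    {ε k0 : ℝ} (hε : 0 < ε) (hε' : ε ≤ 1 / 8) (hk : 0 < k0) (hk1 : k0 ≤ 1)
    {n : ℕ} {t1 t3 e1 e2 e3 K0 cP : ℝ} (hcP : 0 ≤ cP)
    (hK0 : 0 ≤ K0) (ht1 : 0 ≤ t1) (ht3 : 0 ≤ t3) (he1 : 0 ≤ e1) (he2 : 0 ≤ e2) (he3 : 0 ≤ e3)
    {F1 F2 F3 : ℕ → Pt → ℝ} {Q1 Q2 Q3 : ℕ → Pt → Prop} (h1 : SlM n t1 e1 K0 cP F1 Q1)
    (h3 : SlM n t3 e3 K0 cP F3 Q3) (h2 : BSl n e2 cP F2 Q2) (h2m : Mo4 n (e2 ^ 2) F2) {o : ℤ}
    (ho : |o| = 1) {K : ℕ} (hK : K ≤ n) (x : Pt) (u : Tri) :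
    ∑ k ∈ Icc 1 K, (2 ^ k : ℝ)⁻¹ * ∑ m ∈ cbs K (cx K x) k with ¬ cst Λ u K k (crn k m),
      |loc k (bx0 o m) (atm u) (F1 k) (F2 k) (F3 k)| ≤
        cG Λ cP K0 C ε * prE ε t1 t3 e1 e3 e2 * wK (k0 ^ (-(8 * ε))) k0 (cube3 K x) u := by
  have hε4 : ε ≤ 1 / 4 := by linarith
  refine (gen_le_cgen Λ ho K x u F1 F2 F3).trans ?_
  have o3 := sum_own hO hcP he3 (by positivity) h3.b h3.m0 hK u.1 x x.1 x.2.1
  have o3' := sum_own hO hcP he3 (M := K0 * (t3 ^ 2 * e3)) (by positivity) h3.b h3.m1 hK u.1 x x.1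
    x.2.1
  have o1 := sum_own hO hcP he1 (by positivity) h1.b h1.m0 hK u.2.2 x x.2.1 x.2.2
  have o1' := sum_own hO hcP he1 (M := K0 * (t1 ^ 2 * e1)) (by positivity) h1.b h1.m1 hK u.2.2 x
    x.2.1 x.2.2
  have o2 := sum_own hO hcP he2 (by positivity) h2 h2m hK u.2.1 x x.1 x.2.2
  have key0 := sum_le_two ({()} : Finset Unit) (T := fun _ => cgen Λ o K x u F1 F2 F3)
    (GA := fun _ => GS Λ K x x.1 x.2.1 u.1 Q3 F3)
    (GB := fun _ => GS Λ K x x.2.1 x.2.2 u.2.2 Q1 F1)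
    (GC := fun _ => GS Λ K x x.1 x.2.2 u.2.1 Q2 F2)
    (DA := fun _ => DS Λ K x x.1 x.2.1 u.1 Q3 F3)
    (DB := fun _ => DS Λ K x x.2.1 x.2.2 u.2.2 Q1 F1)
    (DC := fun _ => DS Λ K x x.1 x.2.2 u.2.1 Q2 F2) (θ := ε) (K := C * (cP + 2))
    hε hε4 (by positivity)
    (fun _ _ => GS_nonneg ..) (fun _ _ => GS_nonneg ..) (fun _ _ => GS_nonneg ..)
    (fun _ _ => DS_nonneg ..) (fun _ _ => DS_nonneg ..) (fun _ _ => DS_nonneg ..)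
    (fun _ _ gA gB gC dA dB dC g1 g2 g3 g4 g5 g6 =>
      cgen_le hE hP hcP h1.b h3.b h2 ho hK x u gA gB gC dA dB dC g1 g2 g3 g4 g5 g6)
  simp only [sum_singleton] at key0
  have key1 := two_leK (θ := ε) (k := k0) (V := 8 ^ K)
    (c := cE Λ cP K0) (tA := t3) (tB := t1) (eA := e3) (eB := e1) (eC := e2)
    hε hε' hk hk1 (by positivity) (cE_nonneg hcP hK0) ht3 ht1 he3 he1 he2
    (s2_nonneg K x.1 x.2.1 u.1) (s4n_nonneg K x.1 x.2.1 u.1) (s2_nonneg K x.2.1 x.2.2 u.2.2)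
    (s4n_nonneg K x.2.1 x.2.2 u.2.2) (s2_nonneg K x.1 x.2.2 u.2.1) (s4n_nonneg K x.1 x.2.2 u.2.1)
    (GS_nonneg Λ K x x.1 x.2.1 u.1 Q3 F3) (GS_nonneg Λ K x x.2.1 x.2.2 u.2.2 Q1 F1)
    (GS_nonneg Λ K x x.1 x.2.2 u.2.1 Q2 F2)
    (DS_nonneg Λ K x x.1 x.2.1 u.1 Q3 F3) (DS_nonneg Λ K x x.2.1 x.2.2 u.2.2 Q1 F1)
    (DS_nonneg Λ K x x.1 x.2.2 u.2.1 Q2 F2)
    (big4 hcP (sq_nonneg _) o3'.1 (ep1 K0 he3))
    (big4 hcP (sq_nonneg _) o3.1 (ep0 K0 hK0 e3))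
    (big4 hcP (sq_nonneg _) o1'.1 (ep1 K0 he1))
    (big4 hcP (sq_nonneg _) o1.1 (ep0 K0 hK0 e1))
    (big4 hcP (sq_nonneg _) o2.1 (ep0 K0 hK0 e2))
    (big2 hΛ hcP hK0 (sq_nonneg _) he3 o3.2)
    (big2 hΛ hcP hK0 (sq_nonneg _) he1 o1.2)
    (big2 hΛ hcP hK0 (sq_nonneg _) he2 o2.2)
  refine key0.trans ((mul_le_mul_of_nonneg_left key1 (by positivity)).trans (le_of_eq ?_))
  rw [wK_sq]
  unfold cG prE
  rw [mul_comm t3 t1, mul_comm e3 e1]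
  ring

/-! ### All generations -/

/-- **All generations.** -/
theorem cos0_leK {Λ C : ℝ} (hΛ : 1 ≤ Λ) (hC : 0 ≤ C) (hG : GenK Λ) (hE : EngF C) (hP : PthSt Λ)
    (hO : OwnSt Λ) {ε k0 : ℝ} (hε : 0 < ε) (hε' : ε ≤ 1 / 8) (hk : 0 < k0) (hk1 : k0 ≤ 1)
    {n : ℕ} {t1 t3 e1 e2 e3 K0 cP : ℝ}
    (hcP : 0 ≤ cP) (hK0 : 0 ≤ K0) (ht1 : 0 ≤ t1) (ht3 : 0 ≤ t3) (he1 : 0 ≤ e1) (he2 : 0 ≤ e2)
    (he3 : 0 ≤ e3) {F1 F2 F3 : ℕ → Pt → ℝ} {Q1 Q2 Q3 : ℕ → Pt → Prop}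
    (h1 : SlM n t1 e1 K0 cP F1 Q1) (h3 : SlM n t3 e3 K0 cP F3 Q3) (h2 : BSl n e2 cP F2 Q2)
    (h2m : Mo4 n (e2 ^ 2) F2) {o : ℤ} (ho : |o| = 1) {K : ℕ} (hK : K ≤ n) (x : Pt) (u : Tri) :
    cos0 o K x u F1 F2 F3 ≤ 2 * (cG Λ cP K0 C ε * prE ε t1 t3 e1 e3 e2) *
      wK (k0 ^ (-(8 * ε))) k0 (cube3 K x) u := by
  have hc := cG_nonneg (Λ := Λ) hcP hK0 hC hε
  have hp : 0 ≤ prE ε t1 t3 e1 e3 e2 := by
    unfold prE
    have := Real.rpow_nonneg (mul_nonneg ht1 ht3) (1 / 2 - ε)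
    have := Real.rpow_nonneg (mul_nonneg he1 he3) (1 / 4 + ε / 2)
    have := Real.rpow_nonneg he2 (1 / 2 : ℝ)
    positivity
  have hgen := hG (k0 ^ (-(8 * ε))) k0 (Real.rpow_nonneg hk.le _) hk.le
    (cG Λ cP K0 C ε * prE ε t1 t3 e1 e3 e2) (mul_nonneg hc hp) u
    (cz o u F1 F2 F3) n (fun K hK x => by
      rw [sum_cz o u F1 F2 F3 K x (fun k z => ¬ cst Λ u K k z)
        (fun k z => not_congr (cst_crn Λ u K k z))]
      exact gen_oneK hΛ hC hE hP hO hε hε' hk hk1 hcP hK0 ht1 ht3 he1 he2 he3 h1 h3 h2 h2m ho hK x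
        u) K hK x
  refine le_trans (le_of_eq ?_) hgen
  have h4 := sum_cz o u F1 F2 F3 K x (fun _ _ => True) (fun _ _ => Iff.rfl)
  simp only [filter_true] at h4
  rw [h4]
  rfl

/-- (E), `L²` slot `F2`, weight with the preferred term -/
def Pos2K (C ε cP : ℝ) : Prop :=
  ∀ (n : ℕ) (t1 t3 e1 e2 e3 : ℝ) (F1 F2 F3 : ℕ → Pt → ℝ), US n t1 e1 cP F1 → US n t3 e3 cP F3 →
    ES n e2 cP F2 → ∀ o : ℤ, o = 1 ∨ o = -1 → ∀ k : ℝ, 0 < k → k ≤ 1 →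
    ∀ K ≤ n, ∀ (x : Pt) (u : Tri), cos0 o K x u F1 F2 F3 ≤
      C * prE ε t1 t3 e1 e3 e2 * wK (k ^ (-(8 * ε))) k (cube3 K x) u

/-- **(E), `L²` slot `F2`, from the generations.** -/
theorem pos2K_of {Λ C K0 : ℝ} (hΛ : 1 ≤ Λ) (hC : 0 ≤ C) (hK0 : 0 ≤ K0) (hG : GenK Λ)
    (hE : EngF C) (hP : PthSt Λ) (hO : OwnSt Λ) (hM : MoUni K0) (hT : MoTri) {ε cP : ℝ}
    (hε : 0 < ε) (hε' : ε ≤ 1 / 8) (hcP : 0 ≤ cP) : Pos2K (2 * cG Λ cP K0 C ε) ε cP := by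
  intro n t1 t3 e1 e2 e3 F1 F2 F3 h1 h3 h2 o ho k hk hk1 K hK x u
  obtain ⟨ht1, hte1, hU1, Q1, hB1⟩ := h1
  obtain ⟨ht3, hte3, hU3, Q3, hB3⟩ := h3
  obtain ⟨he2, Q2, hB2⟩ := h2
  have he1 : 0 ≤ e1 := (sq_nonneg _).trans hte1
  have he3 : 0 ≤ e3 := (sq_nonneg _).trans hte3
  have ho' : |o| = 1 := by rcases ho with rfl | rfl <;> simp
  have h := cos0_leK hΛ hC hG hE hP hO hε hε' hk hk1 hcP hK0 ht1 ht3 he1 he2 he3
    (F1 := F1) (F2 := F2) (F3 := F3)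
    ⟨hB1, hT n e1 cP F1 Q1 he1 hB1, hM n t1 e1 cP F1 Q1 ht1 he1 hB1 hU1⟩
    ⟨hB3, hT n e3 cP F3 Q3 he3 hB3, hM n t3 e3 cP F3 Q3 ht3 he3 hB3 hU3⟩ hB2
    (hT n e2 cP F2 Q2 he2 hB2) ho' hK x u
  refine h.trans (le_of_eq ?_)
  ring

/-- **(E), `L²` slot `F2`, weight with the preferred term.** -/
theorem pos2K {ε cP : ℝ} (hε : 0 < ε) (hε' : ε ≤ 1 / 8) (hcP : 0 ≤ cP) :
    Pos2K (2 * cG Lam0 cP 240000 cEng ε) ε cP :=
  pos2K_of one_le_Lam0 cEng_nonneg (by norm_num) genK H784.engF (H769.pthSt Lam0)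
    (H769.ownSt one_le_Lam0) moUni moTri hε hε' hcP

end

end Vale.Agent.P141.H579
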