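import Vale.Agent.P141.H579.Run3
import Vale.Agent.P141.H922.PairS1

/-!
# P141, weight module: the pair weight of the running maxima, tail estimate

`pM l u k q`: the pair weight formed with the running maxima over the scales `k .. l` at `q`; it
dominates `pw3 (cube3 j q) u` for `k ≤ j ≤ l`.
`tail_pM`: summed over points of a cube at which one of the six local norms exceeds `Λ` times its
value on the cube, it is at most `1153³ Λ^(-1/60)` times the pair weight of the cube.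
-/

namespace Vale.Agent.P141.H579

open Finset
open Vale.Agent.P141.PL.H315 (avg avg_nonneg iv mem_iv card_iv self_mem_iv iv_eq card_pos_iv
  cube3 mem_cube3 card_cube3 e12 e13 e23 Tri avg_nonneg)
open Vale.Agent.P141.H922 (n2 n4 nN pw3 n2_nonneg n4_nonneg nN_nonneg n2_sq n4_four nN_sq
  avg_sq_nonneg avg_four_nonneg n2_le_n4 n2_e12 n2_e13 n2_e23 n4_e12 n4_e13 n4_e23 nN_e12 nN_e13
  nN_e23 pw3_nonneg)

noncomputable section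

/-! ### Real inequalities -/

theorem three_nonneg {a b c x y z : ℝ} (ha : 0 ≤ a) (hb : 0 ≤ b) (hc : 0 ≤ c) (hx : 0 ≤ x)
    (hy : 0 ≤ y) (hz : 0 ≤ z) : 0 ≤ a * b * z + a * c * y + b * c * x := by positivity

theorem three_mono {a b c x y z a' b' c' x' y' z' : ℝ} (ha : 0 ≤ a) (hb : 0 ≤ b) (hc : 0 ≤ c)
    (hx : 0 ≤ x) (hy : 0 ≤ y) (hz : 0 ≤ z) (h1 : a ≤ a') (h2 : b ≤ b') (h3 : c ≤ c')
    (h4 : x ≤ x') (h5 : y ≤ y') (h6 : z ≤ z') :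
    a * b * z + a * c * y + b * c * x ≤ a' * b' * z' + a' * c' * y' + b' * c' * x' := by
  have ha' := ha.trans h1
  have hb' := hb.trans h2
  have hc' := hc.trans h3
  gcongr

theorem prod_six {L a b c d e f a' b' c' d' e' f' : ℝ} (hL : 0 ≤ L) (ha : 0 ≤ a) (hb : 0 ≤ b)
    (hc : 0 ≤ c) (hd : 0 ≤ d) (he : 0 ≤ e) (hf : 0 ≤ f) (h1 : a ≤ a') (h2 : b ≤ b')
    (h3 : c ≤ c') (h4 : d ≤ d') (h5 : e ≤ e') (h6 : f ≤ f')
    (h : L * a ≤ a' ∨ L * b ≤ b' ∨ L * c ≤ c' ∨ L * d ≤ d' ∨ L * e ≤ e' ∨ L * f ≤ f') :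
    L * (a * b * (c * d) * (e * f)) ≤ a' * b' * (c' * d') * (e' * f') := by
  have ha' := ha.trans h1
  have hb' := hb.trans h2
  have hc' := hc.trans h3
  have hd' := hd.trans h4
  have he' := he.trans h5
  have hf' := hf.trans h6
  rcases h with h | h | h | h | h | h
  · calc L * (a * b * (c * d) * (e * f)) = (L * a) * b * (c * d) * (e * f) := by ring
      _ ≤ _ := by gcongr
  · calc L * (a * b * (c * d) * (e * f)) = a * (L * b) * (c * d) * (e * f) := by ring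
      _ ≤ _ := by gcongr
  · calc L * (a * b * (c * d) * (e * f)) = a * b * ((L * c) * d) * (e * f) := by ring
      _ ≤ _ := by gcongr
  · calc L * (a * b * (c * d) * (e * f)) = a * b * (c * (L * d)) * (e * f) := by ring
      _ ≤ _ := by gcongr
  · calc L * (a * b * (c * d) * (e * f)) = a * b * (c * d) * ((L * e) * f) := by ring
      _ ≤ _ := by gcongr
  · calc L * (a * b * (c * d) * (e * f)) = a * b * (c * d) * (e * (L * f)) := by ring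
      _ ≤ _ := by gcongr

/-! ### The pair weight of the running maxima -/

/-- running maximum of `nN`, upper bound -/
def mN (l : ℕ) (v : ℤ × ℤ → ℝ) (k : ℕ) (w : ℤ × ℤ) : ℝ := √(m2 l v k w * m4 l v k w)

theorem mN_nonneg (l : ℕ) (v : ℤ × ℤ → ℝ) (k : ℕ) (w : ℤ × ℤ) : 0 ≤ mN l v k w :=
  Real.sqrt_nonneg _

/-- **the pair weight of the running maxima** -/
def pM (l : ℕ) (u : Tri) (k : ℕ) (q : ℤ × ℤ × ℤ) : ℝ :=
  mN l u.1 k (q.1, q.2.1) * mN l u.2.1 k (q.1, q.2.2) * m2 l u.2.2 k (q.2.1, q.2.2) +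
    mN l u.1 k (q.1, q.2.1) * mN l u.2.2 k (q.2.1, q.2.2) * m2 l u.2.1 k (q.1, q.2.2) +
    mN l u.2.1 k (q.1, q.2.2) * mN l u.2.2 k (q.2.1, q.2.2) * m2 l u.1 k (q.1, q.2.1)

theorem pM_nonneg (l : ℕ) (u : Tri) (k : ℕ) (q : ℤ × ℤ × ℤ) : 0 ≤ pM l u k q :=
  three_nonneg (mN_nonneg _ _ _ _) (mN_nonneg _ _ _ _) (mN_nonneg _ _ _ _) (m2_nonneg _ _ _ _)
    (m2_nonneg _ _ _ _) (m2_nonneg _ _ _ _)

theorem mN_anti (l : ℕ) (v : ℤ × ℤ → ℝ) {k k' : ℕ} (h : k ≤ k') (w : ℤ × ℤ) :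
    mN l v k' w ≤ mN l v k w :=
  Real.sqrt_le_sqrt (mul_le_mul (m2_anti l v h w) (m4_anti l v h w) (m4_nonneg _ _ _ _)
    (m2_nonneg _ _ _ _))

theorem pM_anti (l : ℕ) (u : Tri) {k k' : ℕ} (h : k ≤ k') (q : ℤ × ℤ × ℤ) :
    pM l u k' q ≤ pM l u k q :=
  three_mono (mN_nonneg _ _ _ _) (mN_nonneg _ _ _ _) (mN_nonneg _ _ _ _) (m2_nonneg _ _ _ _)
    (m2_nonneg _ _ _ _) (m2_nonneg _ _ _ _) (mN_anti l u.1 h _) (mN_anti l u.2.1 h _)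
    (mN_anti l u.2.2 h _) (m2_anti l u.1 h _) (m2_anti l u.2.1 h _) (m2_anti l u.2.2 h _)

theorem nN_le_mN {l : ℕ} (v : ℤ × ℤ → ℝ) {k j : ℕ} (h1 : k ≤ j) (h2 : j ≤ l) (w : ℤ × ℤ) :
    nN (sq j w) v ≤ mN l v k w :=
  Real.sqrt_le_sqrt (mul_le_mul (le_m2 v h1 h2 w) (le_m4 v h1 h2 w) (n4_nonneg _ _)
    (m2_nonneg _ _ _ _))

/-- **the local pair weights are below the pair weight of the running maxima** -/
theorem pw3_le_pM {l : ℕ} (u : Tri) {k j : ℕ} (h1 : k ≤ j) (h2 : j ≤ l) (q : ℤ × ℤ × ℤ) :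
    pw3 (cube3 j q) u ≤ pM l u k q := by
  unfold pw3 pM
  rw [nN_e12, nN_e13, nN_e23, n2_e12, n2_e13, n2_e23]
  exact three_mono (nN_nonneg _ _) (nN_nonneg _ _) (nN_nonneg _ _) (n2_nonneg _ _)
    (n2_nonneg _ _) (n2_nonneg _ _) (nN_le_mN u.1 h1 h2 (q.1, q.2.1))
    (nN_le_mN u.2.1 h1 h2 (q.1, q.2.2)) (nN_le_mN u.2.2 h1 h2 (q.2.1, q.2.2))
    (le_m2 u.1 h1 h2 (q.1, q.2.1)) (le_m2 u.2.1 h1 h2 (q.1, q.2.2))
    (le_m2 u.2.2 h1 h2 (q.2.1, q.2.2))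

/-- the running maxima only see the cube -/
theorem pM_congr {k l : ℕ} (u : Tri) {q q' : ℤ × ℤ × ℤ} (h : q' ∈ cube3 k q) :
    pM l u k q' = pM l u k q := by
  have hm := mem_cube3.1 h
  have h12 : (q'.1, q'.2.1) ∈ sq k (q.1, q.2.1) := mem_product.2 ⟨hm.1, hm.2.1⟩
  have h13 : (q'.1, q'.2.2) ∈ sq k (q.1, q.2.2) := mem_product.2 ⟨hm.1, hm.2.2⟩
  have h23 : (q'.2.1, q'.2.2) ∈ sq k (q.2.1, q.2.2) := mem_product.2 ⟨hm.2.1, hm.2.2⟩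
  unfold pM mN
  rw [m2_congr u.1 h12, m4_congr u.1 h12, m2_congr u.2.1 h13, m4_congr u.2.1 h13,
    m2_congr u.2.2 h23, m4_congr u.2.2 h23]

/-- at the top scale it is the pair weight -/
theorem pM_top (l : ℕ) (u : Tri) (q : ℤ × ℤ × ℤ) : pM l u l q = pw3 (cube3 l q) u := by
  unfold pM pw3 mN
  rw [nN_e12, nN_e13, nN_e23, n2_e12, n2_e13, n2_e23, m2_top, m2_top, m2_top, m4_top, m4_top,
    m4_top]
  rfl

/-! ### Degenerate edges -/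

theorem zero_of_n2 {Q : Finset (ℤ × ℤ)} {v : ℤ × ℤ → ℝ} (h : n2 Q v = 0) : ∀ w ∈ Q, v w = 0 := by
  intro w hw
  have hc : (0 : ℝ) < Q.card := by exact_mod_cast card_pos.2 ⟨w, hw⟩
  have h1 : avg Q (fun x => v x ^ 2) = 0 := by rw [← n2_sq, h]; norm_num
  unfold avg at h1
  rcases mul_eq_zero.1 h1 with h2 | h2
  · exact absurd h2 (inv_ne_zero hc.ne')
  · have h3 := (sum_eq_zero_iff_of_nonneg fun x _ => sq_nonneg (v x)).1 h2 w hw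
    exact pow_eq_zero_iff (by norm_num) |>.1 h3

theorem n2_eq_zero_of_n4 {Q : Finset (ℤ × ℤ)} {v : ℤ × ℤ → ℝ} (h : n4 Q v = 0) : n2 Q v = 0 :=
  le_antisymm ((n2_le_n4 Q v).trans h.le) (n2_nonneg _ _)

theorem m_zero_of {l : ℕ} {v : ℤ × ℤ → ℝ} {w0 : ℤ × ℤ} (h : ∀ w ∈ sq l w0, v w = 0) {k : ℕ}
    {w : ℤ × ℤ} (hw : w ∈ sq l w0) : m2 l v k w = 0 ∧ m4 l v k w = 0 := by
  constructor
  · refine le_antisymm (rmax_le le_rfl fun j _ h2 => ?_) (m2_nonneg _ _ _ _)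
    unfold n2
    rw [avg_zero_of fun z hz => ?_, Real.sqrt_zero]
    rw [h z (sq_sub h2 hw hz)]
    norm_num
  · refine le_antisymm (rmax_le le_rfl fun j _ h2 => ?_) (m4_nonneg _ _ _ _)
    unfold n4
    rw [avg_zero_of fun z hz => ?_, Real.sqrt_zero, Real.sqrt_zero]
    rw [h z (sq_sub h2 hw hz)]
    norm_num

/-! ### The three terms as powers -/

theorem mN_eq (l : ℕ) (v : ℤ × ℤ → ℝ) (w : ℤ × ℤ) : mN l v 0 w = gg (1 / 2) (1 / 2) l v w := by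
  unfold mN gg
  rw [Real.sqrt_eq_rpow, Real.mul_rpow (m2_nonneg _ _ _ _) (m4_nonneg _ _ _ _)]

theorem m2_eq (l : ℕ) (v : ℤ × ℤ → ℝ) (w : ℤ × ℤ) : m2 l v 0 w = gg 1 0 l v w := by
  unfold gg
  rw [Real.rpow_one, Real.rpow_zero, mul_one]

theorem nN_eq (Q : Finset (ℤ × ℤ)) (v : ℤ × ℤ → ℝ) : nN Q v = nn (1 / 2) (1 / 2) Q v := by
  unfold nN nn
  rw [Real.sqrt_eq_rpow, Real.mul_rpow (n2_nonneg _ _) (n4_nonneg _ _)]

theorem n2_eq (Q : Finset (ℤ × ℤ)) (v : ℤ × ℤ → ℝ) : n2 Q v = nn 1 0 Q v := by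
  unfold nn
  rw [Real.rpow_one, Real.rpow_zero, mul_one]

theorem pM_eq (l : ℕ) (u : Tri) (q : ℤ × ℤ × ℤ) : pM l u 0 q =
    GG (1 / 2) (1 / 2) (1 / 2) (1 / 2) 1 0 l u q + GG (1 / 2) (1 / 2) 1 0 (1 / 2) (1 / 2) l u q +
      GG 1 0 (1 / 2) (1 / 2) (1 / 2) (1 / 2) l u q := by
  unfold pM GG
  rw [mN_eq, mN_eq, mN_eq, m2_eq, m2_eq, m2_eq]
  ring

theorem pw3_eq (l : ℕ) (u : Tri) (p : ℤ × ℤ × ℤ) : pw3 (cube3 l p) u =
    NNN (1 / 2) (1 / 2) (1 / 2) (1 / 2) 1 0 l u p + NNN (1 / 2) (1 / 2) 1 0 (1 / 2) (1 / 2) l u p +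
      NNN 1 0 (1 / 2) (1 / 2) (1 / 2) (1 / 2) l u p := by
  unfold pw3 NNN sq
  rw [nN_e12, nN_e13, nN_e23, n2_e12, n2_e13, n2_e23, nN_eq, nN_eq, nN_eq]
  conv_lhs => rw [n2_eq _ u.1, n2_eq _ u.2.1, n2_eq _ u.2.2]
  ring

theorem gg_add {a b a' b' : ℝ} (ha : 0 ≤ a) (hb : 0 ≤ b) (ha' : 0 ≤ a') (hb' : 0 ≤ b') (l : ℕ)
    (v : ℤ × ℤ → ℝ) (w : ℤ × ℤ) : gg (a + a') (b + b') l v w = gg a b l v w * gg a' b' l v w := by
  unfold gg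
  rw [Real.rpow_add_of_nonneg (m2_nonneg _ _ _ _) ha ha',
    Real.rpow_add_of_nonneg (m4_nonneg _ _ _ _) hb hb']
  ring

theorem nn_add {a b a' b' : ℝ} (ha : 0 ≤ a) (hb : 0 ≤ b) (ha' : 0 ≤ a') (hb' : 0 ≤ b')
    (Q : Finset (ℤ × ℤ)) (v : ℤ × ℤ → ℝ) : nn (a + a') (b + b') Q v = nn a b Q v * nn a' b' Q v := by
  unfold nn
  rw [Real.rpow_add_of_nonneg (n2_nonneg _ _) ha ha', Real.rpow_add_of_nonneg (n4_nonneg _ _) hb hb']
  ring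

theorem GG_nonneg (a b c d e f : ℝ) (l : ℕ) (u : Tri) (q : ℤ × ℤ × ℤ) : 0 ≤ GG a b c d e f l u q :=
  mul_nonneg (mul_nonneg (gg_nonneg _ _ _ _ _) (gg_nonneg _ _ _ _ _)) (gg_nonneg _ _ _ _ _)

theorem NNN_nonneg (a b c d e f : ℝ) (l : ℕ) (u : Tri) (p : ℤ × ℤ × ℤ) :
    0 ≤ NNN a b c d e f l u p :=
  mul_nonneg (mul_nonneg (nn_nonneg _ _ _ _) (nn_nonneg _ _ _ _)) (nn_nonneg _ _ _ _)

/-- one of the three terms -/
theorem tail_one {a b c d e f δ L C : ℝ} (ha : 0 ≤ a) (hb : 0 ≤ b) (hc : 0 ≤ c) (hd : 0 ≤ d)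
    (he : 0 ≤ e) (hf : 0 ≤ f) (hδ : 0 < δ) (hL : 0 < L) {l : ℕ} {u : Tri}
    {p : ℤ × ℤ × ℤ} (H : avg (cube3 l p) (GG (a + δ) (b + δ) (c + δ) (d + δ) (e + δ) (f + δ) l u) ≤
      C * NNN (a + δ) (b + δ) (c + δ) (d + δ) (e + δ) (f + δ) l u p)
    (hN : 0 < NNN δ δ δ δ δ δ l u p) {S : Finset (ℤ × ℤ × ℤ)} (hS : S ⊆ cube3 l p)
    (hB : ∀ q ∈ S, L ^ δ * NNN δ δ δ δ δ δ l u p ≤ GG δ δ δ δ δ δ l u q) :
    ∑ q ∈ S, GG a b c d e f l u q ≤ C * L ^ (-δ) * 8 ^ l * NNN a b c d e f l u p := by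
  have e1 : ∀ q, GG (a + δ) (b + δ) (c + δ) (d + δ) (e + δ) (f + δ) l u q =
      GG a b c d e f l u q * GG δ δ δ δ δ δ l u q := by
    intro q
    unfold GG
    rw [gg_add ha hb hδ.le hδ.le, gg_add hc hd hδ.le hδ.le, gg_add he hf hδ.le hδ.le]
    ring
  have e2 : NNN (a + δ) (b + δ) (c + δ) (d + δ) (e + δ) (f + δ) l u p =
      NNN a b c d e f l u p * NNN δ δ δ δ δ δ l u p := by
    unfold NNN
    rw [nn_add ha hb hδ.le hδ.le, nn_add hc hd hδ.le hδ.le, nn_add he hf hδ.le hδ.le]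
    ring
  have h1 : (∑ q ∈ S, GG a b c d e f l u q) * (L ^ δ * NNN δ δ δ δ δ δ l u p) ≤
      8 ^ l * (C * (NNN a b c d e f l u p * NNN δ δ δ δ δ δ l u p)) := by
    have h2 : ∑ q ∈ S, GG (a + δ) (b + δ) (c + δ) (d + δ) (e + δ) (f + δ) l u q ≤
        8 ^ l * (C * (NNN a b c d e f l u p * NNN δ δ δ δ δ δ l u p)) := by
      rw [← e2]
      unfold avg at H
      rw [card_cube3, inv_mul_le_iff₀ (by positivity)] at H
      push_cast at H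
      exact (sum_le_sum_of_subset_of_nonneg hS fun q _ _ => GG_nonneg _ _ _ _ _ _ _ _ _).trans H
    refine le_trans ?_ h2
    rw [sum_mul]
    refine sum_le_sum fun q hq => ?_
    rw [e1]
    exact mul_le_mul_of_nonneg_left (hB q hq) (GG_nonneg _ _ _ _ _ _ _ _ _)
  have hLd : 0 < L ^ δ := Real.rpow_pos_of_pos hL _
  have h3 : (∑ q ∈ S, GG a b c d e f l u q) * L ^ δ ≤ 8 ^ l * (C * NNN a b c d e f l u p) := by
    refine le_of_mul_le_mul_right ?_ hN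
    calc (∑ q ∈ S, GG a b c d e f l u q) * L ^ δ * NNN δ δ δ δ δ δ l u p =
          (∑ q ∈ S, GG a b c d e f l u q) * (L ^ δ * NNN δ δ δ δ δ δ l u p) := by ring
      _ ≤ _ := h1
      _ = _ := by ring
  rw [Real.rpow_neg hL.le]
  rw [← le_div_iff₀ hLd] at h3
  refine h3.trans (le_of_eq ?_)
  rw [div_eq_mul_inv]
  ring

/-- **one of the six running maxima at `q` is at least `L` times the norm on the cube of `p`** -/
def Big (L : ℝ) (l : ℕ) (u : Tri) (p q : ℤ × ℤ × ℤ) : Prop :=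
  L * n2 (sq l (p.1, p.2.1)) u.1 ≤ m2 l u.1 0 (q.1, q.2.1) ∨
  L * n4 (sq l (p.1, p.2.1)) u.1 ≤ m4 l u.1 0 (q.1, q.2.1) ∨
  L * n2 (sq l (p.1, p.2.2)) u.2.1 ≤ m2 l u.2.1 0 (q.1, q.2.2) ∨
  L * n4 (sq l (p.1, p.2.2)) u.2.1 ≤ m4 l u.2.1 0 (q.1, q.2.2) ∨
  L * n2 (sq l (p.2.1, p.2.2)) u.2.2 ≤ m2 l u.2.2 0 (q.2.1, q.2.2) ∨
  L * n4 (sq l (p.2.1, p.2.2)) u.2.2 ≤ m4 l u.2.2 0 (q.2.1, q.2.2)

/-- one of the six local norms at a scale `j ≤ l` is at least `L` times the norm on the cube -/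
theorem big_of {L : ℝ} {l : ℕ} {u : Tri} {p q : ℤ × ℤ × ℤ} {j : ℕ} (hj : j ≤ l)
    (h : L * n2 (cube3 l p) (e12 u.1) ≤ n2 (cube3 j q) (e12 u.1) ∨
      L * n4 (cube3 l p) (e12 u.1) ≤ n4 (cube3 j q) (e12 u.1) ∨
      L * n2 (cube3 l p) (e13 u.2.1) ≤ n2 (cube3 j q) (e13 u.2.1) ∨
      L * n4 (cube3 l p) (e13 u.2.1) ≤ n4 (cube3 j q) (e13 u.2.1) ∨
      L * n2 (cube3 l p) (e23 u.2.2) ≤ n2 (cube3 j q) (e23 u.2.2) ∨
      L * n4 (cube3 l p) (e23 u.2.2) ≤ n4 (cube3 j q) (e23 u.2.2)) : Big L l u p q := by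
  have a1 := le_m2 u.1 (Nat.zero_le j) hj (q.1, q.2.1)
  have a2 := le_m4 u.1 (Nat.zero_le j) hj (q.1, q.2.1)
  have b1 := le_m2 u.2.1 (Nat.zero_le j) hj (q.1, q.2.2)
  have b2 := le_m4 u.2.1 (Nat.zero_le j) hj (q.1, q.2.2)
  have c1 := le_m2 u.2.2 (Nat.zero_le j) hj (q.2.1, q.2.2)
  have c2 := le_m4 u.2.2 (Nat.zero_le j) hj (q.2.1, q.2.2)
  rw [n2_e12, n2_e12, n4_e12, n4_e12, n2_e13, n2_e13, n4_e13, n4_e13, n2_e23, n2_e23, n4_e23,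
    n4_e23] at h
  rcases h with h | h | h | h | h | h
  · exact Or.inl (le_trans h a1)
  · exact Or.inr (Or.inl (le_trans h a2))
  · exact Or.inr (Or.inr (Or.inl (le_trans h b1)))
  · exact Or.inr (Or.inr (Or.inr (Or.inl (le_trans h b2))))
  · exact Or.inr (Or.inr (Or.inr (Or.inr (Or.inl (le_trans h c1)))))
  · exact Or.inr (Or.inr (Or.inr (Or.inr (Or.inr (le_trans h c2)))))

theorem rpow_key {L A M δ : ℝ} (hδ : 0 < δ) (hL : 0 ≤ L) (hA : 0 ≤ A) (h : L * A ≤ M) :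
    L ^ δ * A ^ δ ≤ M ^ δ := by
  rw [← Real.mul_rpow hL hA]
  exact Real.rpow_le_rpow (mul_nonneg hL hA) h hδ.le

/-- on a big point the product of the ratios is big -/
theorem GG_big {δ L : ℝ} (hδ : 0 < δ) (hL : 1 ≤ L) {l : ℕ} {u : Tri} {p q : ℤ × ℤ × ℤ}
    (hq : q ∈ cube3 l p) (h : Big L l u p q) :
    L ^ δ * NNN δ δ δ δ δ δ l u p ≤ GG δ δ δ δ δ δ l u q := by
  have hm := mem_cube3.1 hq
  have h12 : (q.1, q.2.1) ∈ sq l (p.1, p.2.1) := mem_product.2 ⟨hm.1, hm.2.1⟩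
  have h13 : (q.1, q.2.2) ∈ sq l (p.1, p.2.2) := mem_product.2 ⟨hm.1, hm.2.2⟩
  have h23 : (q.2.1, q.2.2) ∈ sq l (p.2.1, p.2.2) := mem_product.2 ⟨hm.2.1, hm.2.2⟩
  have e12 := sq_eq h12
  have e13 := sq_eq h13
  have e23 := sq_eq h23
  have a1 : n2 (sq l (p.1, p.2.1)) u.1 ≤ m2 l u.1 0 (q.1, q.2.1) := by
    rw [← e12]; exact le_m2 u.1 (Nat.zero_le l) le_rfl _
  have a2 : n4 (sq l (p.1, p.2.1)) u.1 ≤ m4 l u.1 0 (q.1, q.2.1) := by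
    rw [← e12]; exact le_m4 u.1 (Nat.zero_le l) le_rfl _
  have b1 : n2 (sq l (p.1, p.2.2)) u.2.1 ≤ m2 l u.2.1 0 (q.1, q.2.2) := by
    rw [← e13]; exact le_m2 u.2.1 (Nat.zero_le l) le_rfl _
  have b2 : n4 (sq l (p.1, p.2.2)) u.2.1 ≤ m4 l u.2.1 0 (q.1, q.2.2) := by
    rw [← e13]; exact le_m4 u.2.1 (Nat.zero_le l) le_rfl _
  have c1 : n2 (sq l (p.2.1, p.2.2)) u.2.2 ≤ m2 l u.2.2 0 (q.2.1, q.2.2) := by
    rw [← e23]; exact le_m2 u.2.2 (Nat.zero_le l) le_rfl _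
  have c2 : n4 (sq l (p.2.1, p.2.2)) u.2.2 ≤ m4 l u.2.2 0 (q.2.1, q.2.2) := by
    rw [← e23]; exact le_m4 u.2.2 (Nat.zero_le l) le_rfl _
  have hL0 : 0 ≤ L := by linarith
  unfold GG NNN gg nn
  refine prod_six (Real.rpow_nonneg hL0 _) (Real.rpow_nonneg (n2_nonneg _ _) _)
    (Real.rpow_nonneg (n4_nonneg _ _) _) (Real.rpow_nonneg (n2_nonneg _ _) _)
    (Real.rpow_nonneg (n4_nonneg _ _) _) (Real.rpow_nonneg (n2_nonneg _ _) _)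
    (Real.rpow_nonneg (n4_nonneg _ _) _) (Real.rpow_le_rpow (n2_nonneg _ _) a1 hδ.le)
    (Real.rpow_le_rpow (n4_nonneg _ _) a2 hδ.le) (Real.rpow_le_rpow (n2_nonneg _ _) b1 hδ.le)
    (Real.rpow_le_rpow (n4_nonneg _ _) b2 hδ.le) (Real.rpow_le_rpow (n2_nonneg _ _) c1 hδ.le)
    (Real.rpow_le_rpow (n4_nonneg _ _) c2 hδ.le) ?_
  rcases h with h | h | h | h | h | h
  · exact Or.inl (rpow_key hδ hL0 (n2_nonneg _ _) h)
  · exact Or.inr (Or.inl (rpow_key hδ hL0 (n4_nonneg _ _) h))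
  · exact Or.inr (Or.inr (Or.inl (rpow_key hδ hL0 (n2_nonneg _ _) h)))
  · exact Or.inr (Or.inr (Or.inr (Or.inl (rpow_key hδ hL0 (n4_nonneg _ _) h))))
  · exact Or.inr (Or.inr (Or.inr (Or.inr (Or.inl (rpow_key hδ hL0 (n2_nonneg _ _) h)))))
  · exact Or.inr (Or.inr (Or.inr (Or.inr (Or.inr (rpow_key hδ hL0 (n4_nonneg _ _) h)))))

/-- **Tail estimate for the pair weight of the running maxima.** -/
theorem tail_pM {L : ℝ} (hL : 1 ≤ L) (l : ℕ) (u : Tri) (p : ℤ × ℤ × ℤ) {S : Finset (ℤ × ℤ × ℤ)}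
    (hS : S ⊆ cube3 l p) (hB : ∀ q ∈ S, Big L l u p q) :
    ∑ q ∈ S, pM l u 0 q ≤ 1153 ^ 3 * L ^ (-(1 / 60) : ℝ) * 8 ^ l * pw3 (cube3 l p) u := by
  have hR : 0 ≤ 1153 ^ 3 * L ^ (-(1 / 60) : ℝ) * 8 ^ l * pw3 (cube3 l p) u :=
    mul_nonneg (by positivity) (pw3_nonneg _ _)
  have hsq : ∀ q ∈ S, (q.1, q.2.1) ∈ sq l (p.1, p.2.1) ∧ (q.1, q.2.2) ∈ sq l (p.1, p.2.2) ∧
      (q.2.1, q.2.2) ∈ sq l (p.2.1, p.2.2) := by
    intro q hq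
    have hm := mem_cube3.1 (hS hq)
    exact ⟨mem_product.2 ⟨hm.1, hm.2.1⟩, mem_product.2 ⟨hm.1, hm.2.2⟩,
      mem_product.2 ⟨hm.2.1, hm.2.2⟩⟩
  by_cases h1 : n2 (sq l (p.1, p.2.1)) u.1 = 0
  · refine le_trans (le_of_eq (sum_eq_zero fun q hq => ?_)) hR
    obtain ⟨z1, z2⟩ := m_zero_of (k := 0) (zero_of_n2 h1) (hsq q hq).1
    unfold pM mN
    rw [z1, z2]
    simp
  by_cases h2 : n2 (sq l (p.1, p.2.2)) u.2.1 = 0
  · refine le_trans (le_of_eq (sum_eq_zero fun q hq => ?_)) hR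
    obtain ⟨z1, z2⟩ := m_zero_of (k := 0) (zero_of_n2 h2) (hsq q hq).2.1
    unfold pM mN
    rw [z1, z2]
    simp
  by_cases h3 : n2 (sq l (p.2.1, p.2.2)) u.2.2 = 0
  · refine le_trans (le_of_eq (sum_eq_zero fun q hq => ?_)) hR
    obtain ⟨z1, z2⟩ := m_zero_of (k := 0) (zero_of_n2 h3) (hsq q hq).2.2
    unfold pM mN
    rw [z1, z2]
    simp
  have p1 : 0 < n2 (sq l (p.1, p.2.1)) u.1 := lt_of_le_of_ne (n2_nonneg _ _) (Ne.symm h1)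
  have p2 : 0 < n2 (sq l (p.1, p.2.2)) u.2.1 := lt_of_le_of_ne (n2_nonneg _ _) (Ne.symm h2)
  have p3 : 0 < n2 (sq l (p.2.1, p.2.2)) u.2.2 := lt_of_le_of_ne (n2_nonneg _ _) (Ne.symm h3)
  have q1 := p1.trans_le (n2_le_n4 _ u.1)
  have q2 := p2.trans_le (n2_le_n4 _ u.2.1)
  have q3 := p3.trans_le (n2_le_n4 _ u.2.2)
  have hN : 0 < NNN (1 / 60) (1 / 60) (1 / 60) (1 / 60) (1 / 60) (1 / 60) l u p := by
    unfold NNN nn
    positivity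
  have hB' : ∀ q ∈ S, L ^ (1 / 60 : ℝ) *
      NNN (1 / 60) (1 / 60) (1 / 60) (1 / 60) (1 / 60) (1 / 60) l u p ≤
      GG (1 / 60) (1 / 60) (1 / 60) (1 / 60) (1 / 60) (1 / 60) l u q :=
    fun q hq => GG_big (by norm_num) hL (hS hq) (hB q hq)
  have hL0 : 0 < L := by linarith
  have t1 := tail_one (a := 1 / 2) (b := 1 / 2) (c := 1 / 2) (d := 1 / 2) (e := 1) (f := 0)
    (δ := 1 / 60) (by norm_num) (by norm_num) (by norm_num) (by norm_num) (by norm_num) le_rfl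
    (by norm_num) hL0 (tri23 (by norm_num) (by norm_num) (by norm_num) (by norm_num)
      (by norm_num) (by norm_num) (by norm_num) (by norm_num) (by norm_num) l u p) hN hS hB'
  have t2 := tail_one (a := 1 / 2) (b := 1 / 2) (c := 1) (d := 0) (e := 1 / 2) (f := 1 / 2)
    (δ := 1 / 60) (by norm_num) (by norm_num) (by norm_num) le_rfl (by norm_num) (by norm_num)
    (by norm_num) hL0 (tri13 (by norm_num) (by norm_num) (by norm_num) (by norm_num)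
      (by norm_num) (by norm_num) (by norm_num) (by norm_num) (by norm_num) l u p) hN hS hB'
  have t3 := tail_one (a := 1) (b := 0) (c := 1 / 2) (d := 1 / 2) (e := 1 / 2) (f := 1 / 2)
    (δ := 1 / 60) (by norm_num) le_rfl (by norm_num) (by norm_num) (by norm_num) (by norm_num)
    (by norm_num) hL0 (tri12 (by norm_num) (by norm_num) (by norm_num) (by norm_num)
      (by norm_num) (by norm_num) (by norm_num) (by norm_num) (by norm_num) l u p) hN hS hB'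
  rw [pw3_eq]
  have e1 : ∑ q ∈ S, pM l u 0 q = ∑ q ∈ S, GG (1 / 2) (1 / 2) (1 / 2) (1 / 2) 1 0 l u q +
      ∑ q ∈ S, GG (1 / 2) (1 / 2) 1 0 (1 / 2) (1 / 2) l u q +
      ∑ q ∈ S, GG 1 0 (1 / 2) (1 / 2) (1 / 2) (1 / 2) l u q := by
    rw [← sum_add_distrib, ← sum_add_distrib]
    exact sum_congr rfl fun q _ => pM_eq l u q
  rw [e1]
  linarith

/-- the same with the cardinality of the cube -/
theorem tail_pM_card {L : ℝ} (hL : 1 ≤ L) (l : ℕ) (u : Tri) (p : ℤ × ℤ × ℤ)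
    {S : Finset (ℤ × ℤ × ℤ)} (hS : S ⊆ cube3 l p) (hB : ∀ q ∈ S, Big L l u p q) :
    ∑ q ∈ S, pM l u 0 q ≤
      1153 ^ 3 * L ^ (-(1 / 60) : ℝ) * (cube3 l p).card * pw3 (cube3 l p) u := by
  refine (tail_pM hL l u p hS hB).trans (le_of_eq ?_)
  rw [card_cube3]
  push_cast
  ring

/-- all points: `L = 1` -/
theorem sum_pM_le (l : ℕ) (u : Tri) (p : ℤ × ℤ × ℤ) :
    ∑ q ∈ cube3 l p, pM l u 0 q ≤ 1153 ^ 3 * (cube3 l p).card * pw3 (cube3 l p) u := by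
  refine (tail_pM_card le_rfl l u p Subset.rfl fun q hq => ?_).trans (le_of_eq ?_)
  · have hm := mem_cube3.1 hq
    have h12 : (q.1, q.2.1) ∈ sq l (p.1, p.2.1) := mem_product.2 ⟨hm.1, hm.2.1⟩
    refine Or.inl ?_
    rw [one_mul, ← sq_eq h12]
    exact le_m2 u.1 (Nat.zero_le l) le_rfl (q.1, q.2.1)
  · rw [Real.one_rpow, mul_one]

end

end Vale.Agent.P141.H579
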