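import Vale.Agent.P141.H48.En6
import Vale.Agent.P141.H48.Gen1
import Vale.Agent.P141.H572.CE0

/-!
# P141, line W, squad CE, module `Rest` (C11a): one restart with a large threshold

`u` a triple of edges, `K`, `x` a root cube, `Λ = L ^ 4 ≥ 1` any threshold.  A cube is stopped
(`H48.cst Λ u K k z`) as soon as one of the six averages (of the squares and of the fourth powers of
the three edges, on the squares of the cube or of one of its ancestors inside the root) is more than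
`Λ` times its value on the root.  If everything below every cube costs at most `P` times the pair
weight on that cube, then the stopped part costs only `1153³ L ^ (-1 / 60) P` times the pair weight
on the root: the costs are those of the alive cubes, up to a small part of the natural price.

* `rest_cost` : abstract costs;
* `rest_cosF` : any function `F0` in the position of role `0`, companions depending on the box;
* `rest_catm` : composite atoms, natural price from the price of the scalar atoms;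
* `alive_*` : the local norms on the alive squares.
-/

namespace Vale.Agent.P141.H579

open Finset Vale.Agent.P141.PL
open Vale.Agent.P141.PL.H315 (cube3 atm Tri A2 A2_nonneg avg avg_nonneg e12 e13 e23 card_cube3
  mem_cube3 gz card_cube3_pos)
open Vale.Agent.P141.PL.H560 (cbs bx0)
open Vale.Agent.P141.H922 (n2 n4 nN pw3 wP n2_nonneg n4_nonneg wP_nonneg pw3_nonneg)
open Vale.Agent.P141.H48 (A4 bg sst cst cos0 rlP rlP_S Big_of_cst cst_crn sum_range_Icc)
open Vale.Agent.P141.H572 (cosF catm vt cosF_price)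
open Vale.Agent.P141.PL.H317 (crn sum_cube_cx)

noncomputable section

open scoped Classical

/-- the gain of the restart -/
def gR (L : ℝ) : ℝ := 1153 ^ 3 * L ^ (-(1 / 60) : ℝ)

theorem gR_nonneg {L : ℝ} (hL : 0 ≤ L) : 0 ≤ gR L :=
  mul_nonneg (by positivity) (Real.rpow_nonneg hL _)

/-- the stopped weight, any threshold -/
theorem stopped_weight {L : ℝ} (hL : 1 ≤ L) (hΛ : 1 ≤ L ^ 4) (u : Tri) (K : ℕ) (x : Pt) :
    ∑ z ∈ cube3 K x with cst (L ^ 4) u K 0 z, pw3 (cube3 ((rlP hΛ u K).m z) z) u ≤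
      gR L * ((cube3 K x).card * pw3 (cube3 K x) u) := by
  have h1 : ∑ z ∈ cube3 K x with cst (L ^ 4) u K 0 z, pw3 (cube3 ((rlP hΛ u K).m z) z) u ≤
      ∑ z ∈ cube3 K x with cst (L ^ 4) u K 0 z, pM K u 0 z := by
    refine sum_le_sum fun z hz => ?_
    rw [mem_filter] at hz
    have hlt := (rlP hΛ u K).m_lt ((rlP_S hΛ u K 0 z).2 hz.2)
    exact pw3_le_pM u (Nat.zero_le _) hlt.le z
  have h2 := tail_pM_card hL K u x (filter_subset (fun z => cst (L ^ 4) u K 0 z) (cube3 K x))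
    fun q hq => Big_of_cst hL (mem_filter.1 hq).1 (mem_filter.1 hq).2
  refine h1.trans (h2.trans (le_of_eq ?_))
  unfold gR
  ring

/-- **The restart, abstract costs.** -/
theorem rest_cost {L : ℝ} (hL : 1 ≤ L) {P : ℝ} (hP : 0 ≤ P) (u : Tri) (c : ℕ → Pt → ℝ) (K : ℕ)
    (x : Pt) (h : ∀ K' < K, ∀ x' ∈ cube3 K x, ∑ k ∈ range (K' + 1), ∑ z ∈ cube3 K' x', c k z ≤
      P * wP 1 (cube3 K' x') u) :
    ∑ k ∈ range (K + 1), ∑ z ∈ cube3 K x, c k z ≤
      (∑ k ∈ range (K + 1), ∑ z ∈ cube3 K x with ¬ cst (L ^ 4) u K k z, c k z) +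
        P * gR L * wP 1 (cube3 K x) u := by
  have hΛ : 1 ≤ L ^ 4 := one_le_pow₀ hL
  set R := rlP hΛ u K with hR
  have e1 : ∑ k ∈ range (K + 1), ∑ z ∈ cube3 K x, c k z =
      (∑ k ∈ range (K + 1), ∑ z ∈ cube3 K x with ¬ cst (L ^ 4) u K k z, c k z) +
      ∑ k ∈ range (K + 1), ∑ z ∈ cube3 K x with cst (L ^ 4) u K k z, c k z := by
    rw [← sum_add_distrib]
    refine sum_congr rfl fun k _ => ?_
    rw [add_comm]
    exact (sum_filter_add_sum_filter_not _ _ _).symm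
  have e2 : ∑ k ∈ range (K + 1), ∑ z ∈ cube3 K x with cst (L ^ 4) u K k z, c k z =
      ∑ z ∈ gz.cube K x with R.S 0 z, ∑ k ∈ range (R.m z + 1), c k z := by
    have e3 : ∀ k ∈ range (K + 1), ∑ z ∈ cube3 K x with cst (L ^ 4) u K k z, c k z =
        ∑ z ∈ gz.cube K x with R.S 0 z, if k ≤ R.m z then c k z else 0 := by
      intro k _
      rw [← sum_filter, filter_filter]
      refine sum_congr ?_ fun _ _ => rfl
      ext z
      simp only [mem_filter]
      refine and_congr_right fun _ => ?_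
      constructor
      · intro hs
        have hs' := (rlP_S hΛ u K k z).2 hs
        exact ⟨R.mono_le (Nat.zero_le k) hs', R.le_m hs'⟩
      · rintro ⟨hs, hk⟩
        exact (rlP_S hΛ u K k z).1 (R.mono_le hk (R.S_m hs))
    rw [sum_congr rfl e3, sum_comm]
    refine sum_congr rfl fun z hz => ?_
    have hlt := R.m_lt (mem_filter.mp hz).2
    rw [← sum_filter]
    refine sum_congr ?_ fun _ _ => rfl
    ext k
    simp only [mem_filter, mem_range]
    omega
  have e4 : ∑ z ∈ gz.cube K x with R.S 0 z, ∑ k ∈ range (R.m z + 1), c k z ≤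
      ∑ z ∈ gz.cube K x with R.S 0 z, P * pw3 (cube3 (R.m z) z) u := by
    refine R.sum_stopped_le (k₀ := K) le_rfl (a := fun m z => ∑ k ∈ range (m + 1), c k z)
      (b := fun m z => P * pw3 (cube3 m z) u) fun k hk y hy => ?_
    have h3 := h k hk y hy
    rw [sum_comm] at h3
    refine h3.trans_eq ?_
    have h4 : ∀ z ∈ gz.cube k y, P * pw3 (cube3 k z) u = P * pw3 (cube3 k y) u :=
      fun z hz => by rw [show cube3 k z = cube3 k y from gz.eq_of_mem k y z hz]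
    rw [sum_congr rfl h4, sum_const, nsmul_eq_mul]
    unfold wP
    show _ = ((cube3 k y).card : ℝ) * _
    ring
  have e5 : ∑ z ∈ gz.cube K x with R.S 0 z, P * pw3 (cube3 (R.m z) z) u ≤
      P * gR L * wP 1 (cube3 K x) u := by
    rw [← mul_sum]
    have h5 := stopped_weight hL hΛ u K x
    have h6 : ∑ z ∈ gz.cube K x with R.S 0 z, pw3 (cube3 (R.m z) z) u =
        ∑ z ∈ cube3 K x with cst (L ^ 4) u K 0 z, pw3 (cube3 ((rlP hΛ u K).m z) z) u := by
      refine sum_congr ?_ fun _ _ => rfl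
      ext z
      simp only [mem_filter]
      exact and_congr_right fun _ => rlP_S hΛ u K 0 z
    rw [h6]
    refine (mul_le_mul_of_nonneg_left h5 hP).trans_eq ?_
    unfold wP
    ring
  rw [e1, e2]
  exact add_le_add le_rfl (e4.trans e5)

/-! ### The cost of a function in the position of role `0` -/

/-- the normalised cost of a function, companions depending on the box -/
def czF (o : ℤ) (F0 : Pt → ℝ) (F1 F2 F3 : ℕ → Pt → Pt → ℝ) (k : ℕ) (z : Pt) : ℝ :=
  if k = 0 then 0 else (16 ^ k : ℝ)⁻¹ *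
    |loc k (bx0 o (cx k z)) F0 (F1 k (cx k z)) (F2 k (cx k z)) (F3 k (cx k z))|

/-- the cost restricted to the boxes with the property `A` -/
def cosA (A : ℕ → Pt → Prop) (o : ℤ) (K : ℕ) (x : Pt) (F0 : Pt → ℝ)
    (F1 F2 F3 : ℕ → Pt → Pt → ℝ) : ℝ :=
  ∑ k ∈ Icc 1 K, (2 ^ k : ℝ)⁻¹ * ∑ m ∈ cbs K (cx K x) k with A k (crn k m),
    |loc k (bx0 o m) F0 (F1 k m) (F2 k m) (F3 k m)|

theorem cosA_nonneg (A : ℕ → Pt → Prop) (o : ℤ) (K : ℕ) (x : Pt) (F0 : Pt → ℝ)
    (F1 F2 F3 : ℕ → Pt → Pt → ℝ) : 0 ≤ cosA A o K x F0 F1 F2 F3 :=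
  sum_nonneg fun _ _ => mul_nonneg (by positivity) (sum_nonneg fun _ _ => abs_nonneg _)

theorem cosA_mono {A B : ℕ → Pt → Prop} (h : ∀ k z, A k z → B k z) (o : ℤ) (K : ℕ) (x : Pt)
    (F0 : Pt → ℝ) (F1 F2 F3 : ℕ → Pt → Pt → ℝ) :
    cosA A o K x F0 F1 F2 F3 ≤ cosA B o K x F0 F1 F2 F3 := by
  refine sum_le_sum fun k _ => mul_le_mul_of_nonneg_left ?_ (by positivity)
  refine sum_le_sum_of_subset_of_nonneg (fun m hm => ?_) fun _ _ _ => abs_nonneg _
  rw [mem_filter] at hm ⊢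
  exact ⟨hm.1, h _ _ hm.2⟩

theorem cosA_true (o : ℤ) (K : ℕ) (x : Pt) (F0 : Pt → ℝ) (F1 F2 F3 : ℕ → Pt → Pt → ℝ) :
    cosA (fun _ _ => True) o K x F0 F1 F2 F3 = cosF o K x F0 F1 F2 F3 := by
  unfold cosA cosF
  simp only [filter_true]

/-- sums over the points of a cube of the normalised cost, restricted by a cube condition -/
theorem sum_czF (o : ℤ) (F0 : Pt → ℝ) (F1 F2 F3 : ℕ → Pt → Pt → ℝ) (K : ℕ) (x : Pt)
    (A : ℕ → Pt → Prop) (hA : ∀ k z, A k (crn k (cx k z)) ↔ A k z) :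
    ∑ k ∈ range (K + 1), ∑ z ∈ cube3 K x with A k z, czF o F0 F1 F2 F3 k z =
      cosA A o K x F0 F1 F2 F3 := by
  rw [sum_range_Icc K (by simp [czF])]
  unfold cosA
  refine sum_congr rfl fun k hk => ?_
  rw [mem_Icc] at hk
  have hk0 : k ≠ 0 := by omega
  rw [sum_filter, sum_filter]
  have h1 := sum_cube_cx hk.2 x (fun m => if A k (crn k m) then
    (16 ^ k : ℝ)⁻¹ * |loc k (bx0 o m) F0 (F1 k m) (F2 k m) (F3 k m)| else 0)
  have h2 : ∀ z ∈ cube3 K x, (if A k z then czF o F0 F1 F2 F3 k z else 0) =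
      if A k (crn k (cx k z)) then (16 ^ k : ℝ)⁻¹ *
        |loc k (bx0 o (cx k z)) F0 (F1 k (cx k z)) (F2 k (cx k z)) (F3 k (cx k z))| else 0 := by
    intro z _
    simp only [hA]
    unfold czF
    rw [if_neg hk0]
  have e0 : cbs K (cx K x) k = H317.cbs K (cx K x) k := rfl
  rw [sum_congr rfl h2, h1, mul_sum, mul_sum, e0]
  refine sum_congr rfl fun m _ => ?_
  split_ifs
  · have e2 : (16 : ℝ) ^ k = 8 ^ k * 2 ^ k := by rw [← mul_pow]; norm_num
    rw [e2]
    field_simp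
  · simp

/-- **The restart for a function in the position of role `0`**: `u` any triple in whose pair weight
the natural price is stated. -/
theorem rest_cosF {L : ℝ} (hL : 1 ≤ L) {P : ℝ} (hP : 0 ≤ P) (u : Tri) (o : ℤ) (K : ℕ) (x : Pt)
    (F0 : Pt → ℝ) (F1 F2 F3 : ℕ → Pt → Pt → ℝ)
    (h : ∀ K' < K, ∀ x' ∈ cube3 K x, cosF o K' x' F0 F1 F2 F3 ≤ P * wP 1 (cube3 K' x') u) :
    cosF o K x F0 F1 F2 F3 ≤
      cosA (fun k z => ¬ cst (L ^ 4) u K k z) o K x F0 F1 F2 F3 +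
        P * gR L * wP 1 (cube3 K x) u := by
  have e : ∀ (K' : ℕ) (x' : Pt), ∑ k ∈ range (K' + 1), ∑ z ∈ cube3 K' x',
      czF o F0 F1 F2 F3 k z = cosF o K' x' F0 F1 F2 F3 := by
    intro K' x'
    have h4 := sum_czF o F0 F1 F2 F3 K' x' (fun _ _ => True) (fun _ _ => Iff.rfl)
    simp only [filter_true] at h4
    rw [h4, cosA_true]
  have key := rest_cost hL hP u (czF o F0 F1 F2 F3) K x fun K' hK x' hx => by
    rw [e]
    exact h K' hK x' hx
  have e7 : ∑ k ∈ range (K + 1), ∑ z ∈ cube3 K x with ¬ cst (L ^ 4) u K k z,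
      czF o F0 F1 F2 F3 k z = cosA (fun k z => ¬ cst (L ^ 4) u K k z) o K x F0 F1 F2 F3 := by
    rw [← sum_czF o F0 F1 F2 F3 K x (fun k z => ¬ cst (L ^ 4) u K k z)
      (fun k z => not_congr (cst_crn (L ^ 4) u K k z))]
    refine sum_congr rfl fun k _ => sum_congr ?_ fun _ _ => rfl
    ext z
    simp only [mem_filter]
  rw [e, e7] at key
  exact key

section composite

variable {κ1 κ2 κ3 : Type*} [Fintype κ1] [Fintype κ2] [Fintype κ3]
  [DecidableEq κ1] [DecidableEq κ2] [DecidableEq κ3]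
  (a : κ1 → κ2 → ℤ × ℤ → ℝ) (b : κ1 → κ3 → ℤ × ℤ → ℝ) (c : κ2 → κ3 → ℤ × ℤ → ℝ)

/-- **The restart for composite atoms.** -/
theorem rest_catm {L : ℝ} (hL : 1 ≤ L) {P : ℝ} (hP : 0 ≤ P) (o : ℤ) (K : ℕ) (x : Pt)
    (F1 F2 F3 : ℕ → Pt → Pt → ℝ)
    (h : ∀ K' < K, ∀ x' ∈ cube3 K x, ∀ u : Tri,
      cosF o K' x' (atm u) F1 F2 F3 ≤ P * wP 1 (cube3 K' x') u) :
    cosF o K x (catm a b c) F1 F2 F3 ≤
      cosA (fun k z => ¬ cst (L ^ 4) (vt a b c) K k z) o K x (catm a b c) F1 F2 F3 +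
        6 * P * gR L * wP 1 (cube3 K x) (vt a b c) :=
  rest_cosF hL (by positivity) (vt a b c) o K x (catm a b c) F1 F2 F3 fun K' hK x' hx =>
    cosF_price a b c hP zero_le_one (h K' hK x' hx)

end composite

/-! ### The alive squares -/

theorem not_sst {Λ : ℝ} {a : ℤ × ℤ → ℝ} {K k : ℕ} {s t : ℤ} (h : ¬ sst Λ a K k s t) {m : ℕ}
    (h1 : k ≤ m) (h2 : m ≤ K) : A2 m a s t ≤ Λ * A2 K a s t ∧ A4 m a s t ≤ Λ * A4 K a s t := by
  unfold sst bg at h
  push Not at h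
  exact h m h1 h2

/-- on an alive cube: all six averages are at most `Λ` times their values on the root -/
theorem not_cst {Λ : ℝ} {u : Tri} {K k : ℕ} {z : Pt} (h : ¬ cst Λ u K k z) {m : ℕ}
    (h1 : k ≤ m) (h2 : m ≤ K) :
    (A2 m u.1 z.1 z.2.1 ≤ Λ * A2 K u.1 z.1 z.2.1 ∧ A4 m u.1 z.1 z.2.1 ≤ Λ * A4 K u.1 z.1 z.2.1) ∧
    (A2 m u.2.1 z.1 z.2.2 ≤ Λ * A2 K u.2.1 z.1 z.2.2 ∧
      A4 m u.2.1 z.1 z.2.2 ≤ Λ * A4 K u.2.1 z.1 z.2.2) ∧
    (A2 m u.2.2 z.2.1 z.2.2 ≤ Λ * A2 K u.2.2 z.2.1 z.2.2 ∧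
      A4 m u.2.2 z.2.1 z.2.2 ≤ Λ * A4 K u.2.2 z.2.1 z.2.2) := by
  unfold cst at h
  push Not at h
  exact ⟨not_sst h.1 h1 h2, not_sst h.2.1 h1 h2, not_sst h.2.2 h1 h2⟩

/-- the alive cubes are hereditary -/
theorem cst_up {Λ : ℝ} {u : Tri} {K k l : ℕ} {z : Pt} (h : ¬ cst Λ u K k z) (hk : k ≤ l) :
    ¬ cst Λ u K l z := by
  intro h'
  refine h ?_
  unfold cst sst at h' ⊢
  rcases h' with ⟨m, h1, h2, h3⟩ | ⟨m, h1, h2, h3⟩ | ⟨m, h1, h2, h3⟩
  · exact Or.inl ⟨m, hk.trans h1, h2, h3⟩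
  · exact Or.inr (Or.inl ⟨m, hk.trans h1, h2, h3⟩)
  · exact Or.inr (Or.inr ⟨m, hk.trans h1, h2, h3⟩)

end

end Vale.Agent.P141.H579
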