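import Vale.Agent.P141.H579.CutC
import Vale.Agent.P141.H419.WpCalc

/-!
# P141, squad CE, module `Rest2` (C11a): restart of `comp g u v`, norms on the alive cubes

* `nrt g u v` : the triple of norms `(‖u‖, ‖v‖, g)`;
* `comp_cosF` : the natural price of `comp g u v`;
* `rest_comp` : the restart with a large threshold;
* `alive_12`, `alive_13`, `alive_23` : on an alive cube the norms `n2`, `n4`, `nN` of the three edges
  are at most `L²`, `L`, `L ^ (3 / 2)` times the norms on the root.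
-/

namespace Vale.Agent.P141.H579

open Finset Vale.Agent.P141.PL
open Vale.Agent.P141.PL.H315 (cube3 atm Tri A2 A2_nonneg avg avg_nonneg)
open Vale.Agent.P141.PL.H560 (cbs bx0)
open Vale.Agent.P141.PL.H317 (crn)
open Vale.Agent.P141.H922 (wP n2 n4 nN n2_nonneg n4_nonneg nN_nonneg wP_nonneg)
open Vale.Agent.P141.H48 (cst A4 ix_corner)
open Vale.Agent.P141.H572 (cosF)
open Vale.Agent.P141.H136 (comp)

noncomputable section

open scoped Classical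

section comp

variable {V : Type*} [NormedAddCommGroup V] [InnerProductSpace ℝ V]

/-- the triple of norms of a composite function, labels at the first vertex -/
def nrt (g : ℤ × ℤ → ℝ) (u v : ℤ → ℤ → V) : Tri :=
  (fun p => ‖u p.1 p.2‖, fun p => ‖v p.1 p.2‖, g)

/-- the boxes of a root as functionals -/
theorem cosF_nds (o : ℤ) (K : ℕ) (x : Pt) (F1 F2 F3 : ℕ → Pt → Pt → ℝ) (F0 : Pt → ℝ) :
    cosF o K x F0 F1 F2 F3 =
      ∑ N ∈ (Icc 1 K).sigma fun k => cbs K (cx K x) k, |bxL o F1 F2 F3 N F0| := by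
  unfold cosF
  rw [sum_sigma]
  refine sum_congr rfl fun k _ => ?_
  rw [mul_sum]
  exact sum_congr rfl fun m _ => (abs_bxL o F1 F2 F3 ⟨k, m⟩ F0).symm

/-- **The natural price of `comp g u v`.** -/
theorem comp_cosF [FiniteDimensional ℝ V] {P : ℝ} (hP : 0 ≤ P) (o : ℤ) (K : ℕ) (x : Pt)
    (g : ℤ × ℤ → ℝ) (u v : ℤ → ℤ → V) (F1 F2 F3 : ℕ → Pt → Pt → ℝ)
    (h : ∀ a : Tri, cosF o K x (atm a) F1 F2 F3 ≤ P * wP 1 (cube3 K x) a) :
    cosF o K x (comp g u v) F1 F2 F3 ≤ 6 * P * wP 1 (cube3 K x) (nrt g u v) := by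
  rw [cosF_nds]
  exact H136.comp_price _ _ hP zero_le_one (fun a => by rw [← cosF_nds]; exact h a) g u v

/-- **The restart of `comp g u v` with a large threshold `L ^ 4`.** -/
theorem rest_comp [FiniteDimensional ℝ V] {L : ℝ} (hL : 1 ≤ L) {P : ℝ} (hP : 0 ≤ P) (o : ℤ)
    (K : ℕ) (x : Pt) (g : ℤ × ℤ → ℝ) (u v : ℤ → ℤ → V) (F1 F2 F3 : ℕ → Pt → Pt → ℝ)
    (h : ∀ K' < K, ∀ x' ∈ cube3 K x, ∀ a : Tri,
      cosF o K' x' (atm a) F1 F2 F3 ≤ P * wP 1 (cube3 K' x') a) :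
    cosF o K x (comp g u v) F1 F2 F3 ≤
      cosA (fun k z => ¬ cst (L ^ 4) (nrt g u v) K k z) o K x (comp g u v) F1 F2 F3 +
        6 * P * gR L * wP 1 (cube3 K x) (nrt g u v) :=
  rest_cosF hL (by positivity) (nrt g u v) o K x (comp g u v) F1 F2 F3 fun K' hK x' hx =>
    comp_cosF hP o K' x' g u v F1 F2 F3 (h K' hK x' hx)

end comp

/-! ### Norms on the alive squares -/

theorem n2_A2 (k : ℕ) (a : ℤ × ℤ → ℝ) (s t : ℤ) :
    n2 (iv k (ix k s) ×ˢ iv k (ix k t)) a = √(A2 k a s t) := rfl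

theorem n4_A4 (k : ℕ) (a : ℤ × ℤ → ℝ) (s t : ℤ) :
    n4 (iv k (ix k s) ×ˢ iv k (ix k t)) a = √√(A4 k a s t) := rfl

theorem n2_of_A2 {L : ℝ} {a : ℤ × ℤ → ℝ} {m K : ℕ} {s t : ℤ}
    (h : A2 m a s t ≤ L ^ 4 * A2 K a s t) :
    n2 (iv m (ix m s) ×ˢ iv m (ix m t)) a ≤ L ^ 2 * n2 (iv K (ix K s) ×ˢ iv K (ix K t)) a := by
  rw [n2_A2, n2_A2]
  refine (Real.sqrt_le_sqrt h).trans (le_of_eq ?_)
  rw [show L ^ 4 = (L ^ 2) ^ 2 by ring, Real.sqrt_mul (sq_nonneg _), Real.sqrt_sq (sq_nonneg _)]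

theorem n4_of_A4 {L : ℝ} (hL : 0 ≤ L) {a : ℤ × ℤ → ℝ} {m K : ℕ} {s t : ℤ}
    (h : A4 m a s t ≤ L ^ 4 * A4 K a s t) :
    n4 (iv m (ix m s) ×ˢ iv m (ix m t)) a ≤ L * n4 (iv K (ix K s) ×ˢ iv K (ix K t)) a := by
  rw [n4_A4, n4_A4]
  refine (Real.sqrt_le_sqrt (Real.sqrt_le_sqrt h)).trans (le_of_eq ?_)
  rw [show L ^ 4 = (L ^ 2) ^ 2 by ring, Real.sqrt_mul (sq_nonneg _), Real.sqrt_sq (sq_nonneg _),
    Real.sqrt_mul (sq_nonneg _), Real.sqrt_sq hL]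

/-- the three norms of one edge on one square -/
def Ald (L : ℝ) (Q R : Finset (ℤ × ℤ)) (a : ℤ × ℤ → ℝ) : Prop :=
  n2 Q a ≤ L ^ 2 * n2 R a ∧ n4 Q a ≤ L * n4 R a

theorem Ald.n2 {L : ℝ} {Q R : Finset (ℤ × ℤ)} {a : ℤ × ℤ → ℝ} (h : Ald L Q R a) :
    n2 Q a ≤ L ^ 2 * n2 R a := h.1

theorem Ald.n4 {L : ℝ} {Q R : Finset (ℤ × ℤ)} {a : ℤ × ℤ → ℝ} (h : Ald L Q R a) :
    n4 Q a ≤ L * n4 R a := h.2

theorem Ald.nN {L : ℝ} (hL : 0 ≤ L) {Q R : Finset (ℤ × ℤ)} {a : ℤ × ℤ → ℝ} (h : Ald L Q R a) :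
    nN Q a ≤ √(L ^ 3) * nN R a := by
  unfold H922.nN
  rw [← Real.sqrt_mul (by positivity)]
  refine Real.sqrt_le_sqrt ((mul_le_mul h.1 h.2 (n4_nonneg _ _)
    (mul_nonneg (sq_nonneg _) (n2_nonneg _ _))).trans (le_of_eq ?_))
  ring

theorem Ald.nN2 {L : ℝ} (hL : 1 ≤ L) {Q R : Finset (ℤ × ℤ)} {a : ℤ × ℤ → ℝ} (h : Ald L Q R a) :
    H922.nN Q a ≤ L ^ 2 * H922.nN R a := by
  refine (h.nN (zero_le_one.trans hL)).trans (mul_le_mul_of_nonneg_right ?_ (nN_nonneg _ _))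
  rw [← Real.sqrt_sq (sq_nonneg L)]
  refine Real.sqrt_le_sqrt ?_
  calc L ^ 3 ≤ L ^ 4 := pow_le_pow_right₀ hL (by norm_num)
    _ = (L ^ 2) ^ 2 := by ring

theorem ald_of {L : ℝ} (hL : 0 ≤ L) {a : ℤ × ℤ → ℝ} {m K : ℕ} {s t : ℤ}
    (h : A2 m a s t ≤ L ^ 4 * A2 K a s t ∧ A4 m a s t ≤ L ^ 4 * A4 K a s t) :
    Ald L (iv m (ix m s) ×ˢ iv m (ix m t)) (iv K (ix K s) ×ˢ iv K (ix K t)) a :=
  ⟨n2_of_A2 h.1, n4_of_A4 hL h.2⟩

theorem ix_crn {K j : ℕ} (hj : j ≤ K) {R a : ℤ} (h : a ∈ iv (K - j) R) : ix K (2 ^ j * a) = R := by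
  have h3 := ix_ix j (K - j) (2 ^ j * a)
  rw [ix_corner, show j + (K - j) = K by omega, mem_iv.1 h] at h3
  exact h3.symm

/-- **On an alive cube** of the root: the local norms of the three edges on their own squares are at
most `L ^ 2` (`L` for the fourth powers) times the norms on the root squares. -/
theorem alive_norms {L : ℝ} (hL : 0 ≤ L) {u : Tri} {K j : ℕ} (hj : j ≤ K) {R M : Pt}
    (hM : M ∈ cbs K R j) (h : ¬ cst (L ^ 4) u K j (crn j M)) :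
    Ald L (iv j M.1 ×ˢ iv j M.2.1) (iv K R.1 ×ˢ iv K R.2.1) u.1 ∧
    Ald L (iv j M.1 ×ˢ iv j M.2.2) (iv K R.1 ×ˢ iv K R.2.2) u.2.1 ∧
    Ald L (iv j M.2.1 ×ˢ iv j M.2.2) (iv K R.2.1 ×ˢ iv K R.2.2) u.2.2 := by
  have h1 := not_cst h le_rfl hj
  unfold cbs at hM
  rw [mem_product, mem_product] at hM
  have e1 := ix_crn hj hM.1
  have e2 := ix_crn hj hM.2.1
  have e3 := ix_crn hj hM.2.2
  have k1 := ald_of hL h1.1
  have k2 := ald_of hL h1.2.1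
  have k3 := ald_of hL h1.2.2
  unfold crn at k1 k2 k3
  simp only [ix_corner, e1, e2, e3] at k1 k2 k3
  exact ⟨k1, k2, k3⟩

/-- the same at the ancestors inside the root -/
theorem alive_norms_up {L : ℝ} (hL : 0 ≤ L) {u : Tri} {K j l : ℕ} (hjl : j ≤ l) (hl : l ≤ K)
    {R M : Pt} (hM : M ∈ cbs K R j) (h : ¬ cst (L ^ 4) u K j (crn j M)) :
    Ald L (iv l (ix (l - j) M.1) ×ˢ iv l (ix (l - j) M.2.1)) (iv K R.1 ×ˢ iv K R.2.1) u.1 ∧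
    Ald L (iv l (ix (l - j) M.1) ×ˢ iv l (ix (l - j) M.2.2)) (iv K R.1 ×ˢ iv K R.2.2) u.2.1 ∧
    Ald L (iv l (ix (l - j) M.2.1) ×ˢ iv l (ix (l - j) M.2.2)) (iv K R.2.1 ×ˢ iv K R.2.2)
      u.2.2 := by
  have h1 := cst_her (L ^ 4) u K j l hjl M h
  refine alive_norms hL hl (M := cx (l - j) M) ?_ h1
  unfold cbs at hM ⊢
  rw [mem_product, mem_product, mem_iv, mem_iv, mem_iv] at hM ⊢
  unfold cx
  rw [ix_ix, ix_ix, ix_ix, show l - j + (K - l) = K - j by omega]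
  exact hM

/-- the mass form: sums of squares on the squares of an alive cube -/
theorem Ald.mass {L : ℝ} {Q R : Finset (ℤ × ℤ)} {a : ℤ × ℤ → ℝ} (h : Ald L Q R a) :
    avg Q (fun p => a p ^ 2) ≤ L ^ 4 * avg R fun p => a p ^ 2 := by
  have h1 := pow_le_pow_left₀ (n2_nonneg _ _) h.1 2
  rw [mul_pow, H922.n2_sq, H922.n2_sq] at h1
  calc _ ≤ _ := h1
    _ = _ := by ring

end

end Vale.Agent.P141.H579
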