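import Vale.Agent.P141.H401.CutData
import Vale.Agent.P141.H511.SeamZ
import Vale.Agent.P141.H576.StatZ
import Vale.Agent.P141.H618.CapC

/-!
# P141, line (A), the gap part: the caps of the definite cut families at the alive nodes

* `cap_cA` : `cA` at the level `th`;
* `capR_cb` : `cb` with labels at the level `th`;
* `capR_mC` : `(√ez)⁻¹ • mC` with labels at the level `2 √√(Λ s)`.
-/

namespace Vale.Agent.P141.H579

open Finset Matrix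
open Vale.Agent.P141.PL (Pt iv hs ix cx mem_iv)
open Vale.Agent.P141.PL.H315 (Tri)
open Vale.Agent.P141.PL.H804 (Cap)
open Vale.Agent.P141.H48 (US ES BSl sst cst)
open Vale.Agent.P141.H677
open Vale.Agent.P141.H401
open Vale.Agent.P141.H958 (lbs CapR CapL)
open Vale.Agent.P141.H511 (BL CL)
open Vale.Agent.P141.H338 (cu cu_smul)

noncomputable section

open scoped Classical

set_option linter.unusedSectionVars false

/-- a labelled cap times a constant -/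
theorem capR_smul {L k : ℕ} {m1 m2 : ℤ} {c : ℝ} {A : ℤ → ℤ → ℤ → ℝ} (a : ℝ)
    (h : CapR L k m1 m2 c A) : CapR L k m1 m2 (a * c) fun l x y => a * A l x y := by
  intro u v
  have h1 := h u v
  have e : ∑ x ∈ iv k m2, ∑ l ∈ lbs L, ∑ y ∈ iv k m1, u l x * v y * (a * A l y x) =
      a * ∑ x ∈ iv k m2, ∑ l ∈ lbs L, ∑ y ∈ iv k m1, u l x * v y * A l y x := by
    simp only [mul_sum]
    refine sum_congr rfl fun x _ => sum_congr rfl fun l _ => sum_congr rfl fun y _ => ?_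
    ring
  show (∑ x ∈ iv k m2, ∑ l ∈ lbs L, ∑ y ∈ iv k m1, u l x * v y * (a * A l y x)) ^ 2 ≤ _
  rw [e, mul_pow]
  have h2 := mul_le_mul_of_nonneg_left h1 (sq_nonneg a)
  refine h2.trans (le_of_eq ?_)
  ring

theorem capR_congr {L k : ℕ} {m1 m2 : ℤ} {c : ℝ} {A A' : ℤ → ℤ → ℤ → ℝ}
    (h : CapR L k m1 m2 c A) (e : ∀ l, ∀ x ∈ iv k m1, ∀ y ∈ iv k m2, A l x y = A' l x y) :
    CapR L k m1 m2 c A' := by
  intro u v
  have h1 := h u v
  have e1 : ∑ x ∈ iv k m2, ∑ l ∈ lbs L, ∑ y ∈ iv k m1, u l x * v y * A l y x =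
      ∑ x ∈ iv k m2, ∑ l ∈ lbs L, ∑ y ∈ iv k m1, u l x * v y * A' l y x :=
    sum_congr rfl fun x hx => sum_congr rfl fun l _ => sum_congr rfl fun y hy => by
      rw [e l y hy x hx]
  show (∑ x ∈ iv k m2, ∑ l ∈ lbs L, ∑ y ∈ iv k m1, u l x * v y * A' l y x) ^ 2 ≤ _
  rw [← e1]
  exact h1

variable {ι : Type} [Fintype ι] [DecidableEq ι]

theorem cap_cA (p : H401.Num) (s r : ℝ) (U : Tri) (K : ℕ) (g : ℤ → ℤ → ℝ) (F1 : ℕ → Pt → ℝ)
    (Q1 : ℕ → Pt → Prop) (x0 : ℤ) {k : ℕ} (hk : 1 ≤ k) (n m : ℤ) :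
    Cap k n m (p.th s r) (cA p s r U K g F1 Q1 x0 k) :=
  H576.cap_low1 (Q := fun k n m => qA p U K Q1 k (ix k x0) n m) (fun _ _ => Or.inl rfl) _ hk n m

theorem capR_cb {e : ι → ℤ} {L : ℕ} (he : Function.Injective e) (hm : ∀ i, e i ∈ lbs L)
    (p : H401.Num) (s r : ℝ) (U : Tri) (K : ℕ) (u : ℤ → ℤ → ι → ℝ) (F3 : ℕ → Pt → ℝ)
    (Q3 : ℕ → Pt → Prop) (x0 : ℤ) {k : ℕ} (hk : 1 ≤ k) (n m : ℤ) :
    CapR L k m n (p.th s r) (BL e (cb p s r U K u F3 Q3 x0 k)) :=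
  H576.capR_lowW (Q := fun k n m => qB p U K Q3 k (ix k x0) n m) he hm (fun _ _ => Or.inl rfl)
    _ hk n m

theorem capR_mC {e : ι → ℤ} {L : ℕ} (he : Function.Injective e) (hm : ∀ i, e i ∈ lbs L)
    {p : H401.Num} (hL : 0 ≤ p.Lm) {n K : ℕ} (hKn : K ≤ n) {ez cP : ℝ} (hez : 0 < ez)
    {F2 : ℕ → Pt → ℝ} (hF : ES n ez cP F2) {x : Pt} {s r P : ℝ} {U : Tri} {g : ℤ → ℤ → ℝ}
    {u v : ℤ → ℤ → ι → ℝ} (hC : H305.Cls K x s r P U g u v) {o x0 : ℤ} {k : ℕ}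
    (hk : k ∈ Icc 1 K) {m : Pt} (hmN : m ∈ sN (p.al U K) o K (cx K x) x0 k) :
    CapR L k m.1 m.2.2 (2 * √(√(p.Lm * s)))
      (CL e fun z x => (√ez)⁻¹ • mC p U K v F2 x0 k z x) := by
  have hez' : 0 < √ez := Real.sqrt_pos.2 hez
  have h1 := capR_smul (√ez)⁻¹ (H618.capC_alive he hm hKn hL hF hC hk hmN)
  have e1 : (√ez)⁻¹ * (2 * √(√(p.Lm * s) * ez)) = 2 * √(√(p.Lm * s)) := by
    rw [Real.sqrt_mul (Real.sqrt_nonneg _)]
    field_simp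
  rw [e1] at h1
  refine capR_congr h1 fun l z hz w hw => ?_
  have hk1 := (mem_Icc.1 hk).1
  have ha := (mem_sN.1 hmN).2.2
  have c2 : ix k (2 ^ k * m.2.1) = m.2.1 := H677.ix_two k _
  rw [mem_iv] at hz hw
  have h2 : kF p.Lm U.2.1 K F2 k (x0, w, z) = F2 k (x0, w, z) :=
    (kF_alive hk1 ha F2 (x0 := x0) (x2 := 2 ^ k * m.2.1) hw c2 hz).2.1
  show (√ez)⁻¹ * cu e (fC v F2 x0 k z w) l =
    cu e (fun i => (√ez)⁻¹ * mC p U K v F2 x0 k z w i) l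
  rw [cu_smul]
  unfold mC
  have h3 : fC v (kF p.Lm U.2.1 K F2) x0 k z w = fC v F2 x0 k z w := by
    unfold fC
    rw [h2]
  rw [h3]

end

end Vale.Agent.P141.H579
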