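import Vale.Agent.P141.H331.SkelTZ
import Vale.Agent.P141.H579.CapZ

/-!
# P141, line (A), the gap part: the leaf `MkT ZCap`

* `mkT_ZCap : H331.MkT H331.ZCap`.
-/

namespace Vale.Agent.P141.H579

open Finset
open Vale.Agent.P141.H401

noncomputable section

open scoped Classical

/-- **The caps of the definite families at the alive nodes.** -/
theorem mkT_ZCap : H331.MkT H331.ZCap := by
  intro a _ _
  refine ⟨1, one_pos, fun e0 _ _ => ⟨1, one_pos, fun k8 _ _ => ⟨1, one_pos, fun k3 _ _ =>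
    ⟨1, 1, 1, 1, one_pos, one_pos, one_pos, one_pos, fun c _ _ d _ _ Kt e cP L _ _ _ _ =>
      ⟨1, le_rfl, 0, le_rfl, ?_⟩⟩⟩⟩⟩
  intro t ht ht1 n ez F1 F2 F3 h1 h3 h2 o ho K hKn x ι _ _ s r U g u v hs hr hcls Q1 Q2 Q3 q1 q2
    q3 hez L' e' he hm t0 ht0
  have hL : 0 ≤ H401.Num.Lm ⟨a, e0, k8, k3, c, d, Kt, e, cP, L, 1, t⟩ :=
    (Real.rpow_pos_of_pos ht _).le
  exact ⟨fun i _ k hk m _ => cap_cA _ s r U K g F1 Q1 i (mem_Icc.1 hk).1 _ _,
    fun i _ k hk m _ => capR_cb he hm _ s r U K u F3 Q3 i (mem_Icc.1 hk).1 _ _,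
    fun i _ k hk m hmN => capR_mC he hm hL hKn hez h2 hcls.toCls hk hmN⟩

end

end Vale.Agent.P141.H579
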