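import Vale.Agent.P141.H579.Rest
import Vale.Agent.P141.H70.Proc
import Vale.Agent.P141.H136.Scal3

/-!
# P141, squad CE, module `CutC` (C9a): the cost of a process = current part + removed pieces

`comp g u v y = g (y₂, y₃) ⟨u (y₁, y₂), v (y₁, y₃)⟩`, `w k` a process (`w (K + 1) = u`,
`w (k + 1) = w k + r k`) whose removed parts `r k` vanish off the events `E k m₁ m₂` (squares),
`A` a hereditary family of cubes (the alive ones).

* `cosG` : the cost of a function which depends on the scale;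
* `evs`, `thr`, `bel`, `bxL` : events, third cells, boxes below, functionals, in the form of the
  price of the removed pieces (`H136.removed_price`);
* `cut_cost` : the cost on the alive boxes is at most the cost of the current part plus the costs
  of the removed pieces below their events;
* `bel_price` : the price of a scalar atom on the boxes below a cube;
* `removed_cost` : `H136.removed_price` on these index sets;
* `cut_cost_az`, `cst_her` : the process of `H70.Proc`, the alive cubes of `Rest`.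
-/

namespace Vale.Agent.P141.H579

open Finset Vale.Agent.P141.PL
open Vale.Agent.P141.PL.H315 (cube3 atm Tri)
open Vale.Agent.P141.PL.H560 (cbs bx0)
open Vale.Agent.P141.PL.H317 (crn)
open Vale.Agent.P141.H922 (wP n2 nN)
open Vale.Agent.P141.H48 (cst cst_crn ix_corner)
open Vale.Agent.P141.H572 (cosF locL locL_apply)
open Vale.Agent.P141.H136 (comp)
open Vale.Agent.P141.H971 (sqs mass sum_iv_split)

noncomputable section

open scoped Classical

/-- the cost of a function which depends on the scale, boxes with the property `A` -/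
def cosG (A : ℕ → Pt → Prop) (o : ℤ) (K : ℕ) (x : Pt) (F0 : ℕ → Pt → ℝ)
    (F1 F2 F3 : ℕ → Pt → Pt → ℝ) : ℝ :=
  ∑ k ∈ Icc 1 K, (2 ^ k : ℝ)⁻¹ * ∑ m ∈ cbs K (cx K x) k with A k (crn k m),
    |loc k (bx0 o m) (F0 k) (F1 k m) (F2 k m) (F3 k m)|

theorem cosG_const (A : ℕ → Pt → Prop) (o : ℤ) (K : ℕ) (x : Pt) (F0 : Pt → ℝ)
    (F1 F2 F3 : ℕ → Pt → Pt → ℝ) :
    cosG A o K x (fun _ => F0) F1 F2 F3 = cosA A o K x F0 F1 F2 F3 := rfl

/-- a hereditary family of cubes (in the indices) -/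
def Her (A : ℕ → Pt → Prop) : Prop :=
  ∀ k j : ℕ, k ≤ j → ∀ m : Pt, A k (crn k m) → A j (crn j (cx (j - k) m))

/-- the events of the root: scale and square -/
def evs (E : ℕ → ℤ → ℤ → Prop) (K : ℕ) (X : Pt) : Finset (Σ _ : ℕ, ℤ × ℤ) :=
  (Icc 1 K).sigma fun j => (sqs K X.1 X.2.1 j).filter fun q => E j q.1 q.2

/-- the third cells of an event -/
def thr (A : ℕ → Pt → Prop) (K : ℕ) (X : Pt) (e : Σ _ : ℕ, ℤ × ℤ) : Finset ℤ :=
  (iv (K - e.1) X.2.2).filter fun m => A e.1 (crn e.1 (e.2.1, e.2.2, m))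

/-- the boxes below a cube -/
def bel (A : ℕ → Pt → Prop) (e : Σ _ : ℕ, ℤ × ℤ) (m : ℤ) : Finset (Σ _ : ℕ, Pt) :=
  (Icc 1 e.1).sigma fun k => (cbs e.1 (e.2.1, e.2.2, m) k).filter fun n => A k (crn k n)

/-- the functional of a box -/
def bxL (o : ℤ) (F1 F2 F3 : ℕ → Pt → Pt → ℝ) (N : Σ _ : ℕ, Pt) : (ℤ × ℤ × ℤ → ℝ) →ₗ[ℝ] ℝ :=
  (2 ^ N.1 : ℝ)⁻¹ • locL N.1 (bx0 o N.2) (F1 N.1 N.2) (F2 N.1 N.2) (F3 N.1 N.2)

theorem abs_bxL (o : ℤ) (F1 F2 F3 : ℕ → Pt → Pt → ℝ) (N : Σ _ : ℕ, Pt) (F0 : Pt → ℝ) :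
    |bxL o F1 F2 F3 N F0| = (2 ^ N.1 : ℝ)⁻¹ *
      |loc N.1 (bx0 o N.2) F0 (F1 N.1 N.2) (F2 N.1 N.2) (F3 N.1 N.2)| := by
  unfold bxL
  rw [LinearMap.smul_apply, smul_eq_mul, locL_apply, abs_mul,
    abs_of_nonneg (show (0 : ℝ) ≤ (2 ^ N.1)⁻¹ by positivity)]

theorem cx_crn (k : ℕ) (m : Pt) : cx k (crn k m) = m := by
  unfold cx crn
  simp only [ix_corner]

theorem cube3_crn (k : ℕ) (m : Pt) : cube3 k (crn k m) = iv k m.1 ×ˢ iv k m.2.1 ×ˢ iv k m.2.2 := by
  have h : cube3 k (crn k m) = cb k (cx k (crn k m)) := rfl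
  rw [h, cx_crn]
  rfl

/-- the boxes below a cube are the boxes of the cost -/
theorem sum_bel (A : ℕ → Pt → Prop) (o : ℤ) (F1 F2 F3 : ℕ → Pt → Pt → ℝ)
    (e : Σ _ : ℕ, ℤ × ℤ) (m : ℤ) (F0 : Pt → ℝ) :
    ∑ N ∈ bel A e m, |bxL o F1 F2 F3 N F0| =
      cosA A o e.1 (crn e.1 (e.2.1, e.2.2, m)) F0 F1 F2 F3 := by
  unfold bel cosA
  rw [sum_sigma, cx_crn]
  refine sum_congr rfl fun k _ => ?_
  rw [mul_sum]
  exact sum_congr rfl fun n _ => abs_bxL o F1 F2 F3 ⟨k, n⟩ F0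

/-- **The price of a scalar atom on the boxes below a cube.** -/
theorem bel_price (A : ℕ → Pt → Prop) {o : ℤ} {F1 F2 F3 : ℕ → Pt → Pt → ℝ} {P : ℝ}
    {e : Σ _ : ℕ, ℤ × ℤ} {m : ℤ}
    (h : ∀ u : Tri, cosF o e.1 (crn e.1 (e.2.1, e.2.2, m)) (atm u) F1 F2 F3 ≤
      P * wP 1 (cube3 e.1 (crn e.1 (e.2.1, e.2.2, m))) u) (u : Tri) :
    ∑ N ∈ bel A e m, |bxL o F1 F2 F3 N (atm u)| ≤
      P * wP 1 (iv e.1 e.2.1 ×ˢ iv e.1 e.2.2 ×ˢ iv e.1 m) u := by
  rw [sum_bel]
  have h1 := h u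
  rw [cube3_crn] at h1
  refine le_trans ?_ h1
  rw [← cosA_true]
  exact cosA_mono (fun _ _ _ => trivial) o _ _ _ _ _ _

/-! ### Regrouping the boxes by their ancestors -/

theorem sum_cbs_split {K j k : ℕ} (hkj : k ≤ j) (hjK : j ≤ K) (X : Pt) (f : Pt → ℝ) :
    ∑ m ∈ cbs K X k, f m = ∑ M ∈ cbs K X j, ∑ m ∈ cbs j M k, f m := by
  have e : ∀ (R : ℤ) (g : ℤ → ℝ), ∑ x ∈ iv (K - k) R, g x =
      ∑ m ∈ iv (K - j) R, ∑ x ∈ iv (j - k) m, g x := by
    intro R g
    have h := sum_iv_split (N := K - k) (k := j - k) (by omega) R g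
    rwa [show K - k - (j - k) = K - j by omega] at h
  unfold cbs
  simp only [sum_product]
  rw [e]
  refine sum_congr rfl fun M1 _ => ?_
  rw [sum_congr rfl fun x1 _ => e X.2.1 _, sum_comm]
  refine sum_congr rfl fun M2 _ => ?_
  rw [sum_congr rfl fun x1 _ => sum_congr rfl fun x2 _ => e X.2.2 _]
  rw [sum_congr rfl fun x1 _ => sum_comm, sum_comm]

theorem cx_of_mem_cbs {j k : ℕ} {M m : Pt} (h : m ∈ cbs j M k) : cx (j - k) m = M := by
  unfold cbs at h
  rw [mem_product, mem_product, mem_iv, mem_iv, mem_iv] at h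
  unfold cx
  rw [h.1, h.2.1, h.2.2]

/-- **Regrouping**: pairs (box, ancestor scale with an event) against (event, box below). -/
theorem sum_regroup {A : ℕ → Pt → Prop} (hA : Her A) (E : ℕ → ℤ → ℤ → Prop) (K : ℕ) (X : Pt)
    (φ : ℕ → ℕ → Pt → ℝ) :
    ∑ k ∈ Icc 1 K, ∑ m ∈ cbs K X k with A k (crn k m),
      ∑ j ∈ Icc k K, (if E j (ix (j - k) m.1) (ix (j - k) m.2.1) then φ j k m else 0) ≤
    ∑ e ∈ evs E K X, ∑ m ∈ thr A K X e, ∑ N ∈ bel A e m, φ e.1 N.1 N.2 := by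
  have h1 : ∑ k ∈ Icc 1 K, ∑ m ∈ cbs K X k with A k (crn k m),
      ∑ j ∈ Icc k K, (if E j (ix (j - k) m.1) (ix (j - k) m.2.1) then φ j k m else 0) =
      ∑ j ∈ Icc 1 K, ∑ k ∈ Icc 1 j, ∑ m ∈ cbs K X k with A k (crn k m),
        (if E j (ix (j - k) m.1) (ix (j - k) m.2.1) then φ j k m else 0) := by
    rw [sum_congr rfl fun k _ => sum_comm]
    refine sum_comm' fun k j => ?_
    simp only [mem_Icc]
    omega
  rw [h1]
  unfold evs
  rw [sum_sigma]
  refine sum_le_sum fun j hj => ?_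
  rw [mem_Icc] at hj
  have h2 : ∀ k ∈ Icc 1 j, ∑ m ∈ cbs K X k with A k (crn k m),
      (if E j (ix (j - k) m.1) (ix (j - k) m.2.1) then φ j k m else 0) ≤
      ∑ M ∈ cbs K X j, if E j M.1 M.2.1 then (if A j (crn j M) then
        ∑ m ∈ cbs j M k with A k (crn k m), φ j k m else 0) else 0 := by
    intro k hk
    rw [mem_Icc] at hk
    rw [sum_filter, sum_cbs_split hk.2 hj.2]
    refine sum_le_sum fun M _ => ?_
    have h3 : ∀ m ∈ cbs j M k, (if A k (crn k m) then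
        (if E j (ix (j - k) m.1) (ix (j - k) m.2.1) then φ j k m else 0) else 0) =
        if E j M.1 M.2.1 then (if A k (crn k m) then φ j k m else 0) else 0 := by
      intro m hm
      have h4 := cx_of_mem_cbs hm
      have h5 : ix (j - k) m.1 = M.1 := congrArg (fun p : Pt => p.1) h4
      have h6 : ix (j - k) m.2.1 = M.2.1 := congrArg (fun p : Pt => p.2.1) h4
      rw [h5, h6]
      split_ifs <;> rfl
    rw [sum_congr rfl h3]
    by_cases hE : E j M.1 M.2.1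
    · simp only [if_pos hE]
      by_cases hM : A j (crn j M)
      · rw [if_pos hM, sum_filter]
      · rw [if_neg hM]
        refine le_of_eq (sum_eq_zero fun m hm => if_neg fun h => hM ?_)
        have h7 := hA k j hk.2 m h
        rwa [cx_of_mem_cbs hm] at h7
    · simp only [if_neg hE, sum_const_zero, le_refl]
  refine (sum_le_sum h2).trans (le_of_eq ?_)
  rw [sum_comm]
  unfold sqs thr bel cbs
  rw [sum_filter, sum_product, sum_product]
  refine sum_congr rfl fun M1 _ => ?_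
  rw [sum_product]
  refine sum_congr rfl fun M2 _ => ?_
  by_cases hE : E j M1 M2
  · simp only [if_pos hE]
    rw [sum_filter]
    refine sum_congr rfl fun M3 _ => ?_
    by_cases hM : A j (crn j (M1, M2, M3))
    · simp only [if_pos hM]
      rw [sum_sigma]
    · simp only [if_neg hM, sum_const_zero]
  · simp only [if_neg hE, sum_const_zero]

/-! ### The cut -/

section cut

variable {V : Type*} [NormedAddCommGroup V] [InnerProductSpace ℝ V]

theorem comp_sum (g : ℤ × ℤ → ℝ) {ι : Type*} (S : Finset ι) (u : ι → ℤ → ℤ → V)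
    (v : ℤ → ℤ → V) : comp g (fun x y => ∑ i ∈ S, u i x y) v = ∑ i ∈ S, comp g (u i) v := by
  funext y
  rw [Finset.sum_apply]
  unfold comp
  rw [sum_inner, mul_sum]

theorem comp_add' (g : ℤ × ℤ → ℝ) (u u' v : ℤ → ℤ → V) (y : Pt) :
    comp g (fun x y => u x y + u' x y) v y = comp g u v y + comp g u' v y := by
  unfold comp
  rw [inner_add_left, mul_add]

omit [InnerProductSpace ℝ V] in
/-- the process: sum of the removed parts -/
theorem proc_sum {w r : ℕ → ℤ → ℤ → V} (hw : ∀ k x y, w (k + 1) x y = w k x y + r k x y)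
    {k l : ℕ} (hkl : k ≤ l) (x y : ℤ) : w l x y = w k x y + ∑ j ∈ Ico k l, r j x y := by
  induction l, hkl using Nat.le_induction with
  | base => rw [Ico_self, sum_empty, add_zero]
  | succ l hl ih => rw [hw, ih, sum_Ico_succ_top hl, add_assoc]

/-- one box -/
theorem cut_box {w r : ℕ → ℤ → ℤ → V} (hw : ∀ k x y, w (k + 1) x y = w k x y + r k x y)
    (g : ℤ × ℤ → ℝ) (v : ℤ → ℤ → V) {k K : ℕ} (hk : k ≤ K) (m : Bx) (F1 F2 F3 : Pt → ℝ) :
    |loc k m (comp g (w (K + 1)) v) F1 F2 F3| ≤ |loc k m (comp g (w k) v) F1 F2 F3| +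
      ∑ j ∈ Icc k K, |loc k m (comp g (r j) v) F1 F2 F3| := by
  have e1 : comp g (w (K + 1)) v = comp g (w k) v + ∑ j ∈ Icc k K, comp g (r j) v := by
    have e2 : w (K + 1) = fun x y => w k x y + ∑ j ∈ Icc k K, r j x y := by
      funext x y
      rw [proc_sum hw (by omega : k ≤ K + 1) x y]
      congr 1
    rw [← comp_sum, e2]
    exact H136.comp_add g (w k) _ v
  have e3 : ∀ F0 : Pt → ℝ, loc k m F0 F1 F2 F3 = locL k m F1 F2 F3 F0 := fun _ => rfl
  rw [e3, e1, map_add, map_sum]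
  refine (abs_add_le _ _).trans (add_le_add le_rfl ?_)
  exact abs_sum_le_sum_abs _ _

/-- a removed part which is zero on the square costs nothing -/
theorem loc_comp_zero {k : ℕ} {m : Pt} {o : ℤ} {r : ℤ → ℤ → V}
    (h : ∀ x ∈ iv k m.1, ∀ y ∈ iv k m.2.1, r x y = 0) (g : ℤ × ℤ → ℝ) (v : ℤ → ℤ → V)
    (F1 F2 F3 : Pt → ℝ) : loc k (bx0 o m) (comp g r v) F1 F2 F3 = 0 := by
  refine H560.loc_eq_zero0 fun p hp => ?_
  have hp' : p ∈ cb k m := hp
  unfold cb at hp'
  rw [mem_product, mem_product] at hp'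
  unfold comp
  rw [h p.1 hp'.1 p.2.1 hp'.2.1, inner_zero_left, mul_zero]

/-- **The cut**: current part and removed pieces below their events. -/
theorem cut_cost {A : ℕ → Pt → Prop} (hA : Her A) {E : ℕ → ℤ → ℤ → Prop} {K : ℕ}
    {w r : ℕ → ℤ → ℤ → V} {u : ℤ → ℤ → V} (hw : ∀ k x y, w (k + 1) x y = w k x y + r k x y)
    (htop : w (K + 1) = u) (hE : ∀ k x y, ¬ E k (ix k x) (ix k y) → r k x y = 0)
    (g : ℤ × ℤ → ℝ) (v : ℤ → ℤ → V) (o : ℤ) (x : Pt) (F1 F2 F3 : ℕ → Pt → Pt → ℝ) :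
    cosA A o K x (comp g u v) F1 F2 F3 ≤
      cosG A o K x (fun k => comp g (w k) v) F1 F2 F3 +
      ∑ e ∈ evs E K (cx K x), ∑ m ∈ thr A K (cx K x) e, ∑ N ∈ bel A e m,
        |bxL o F1 F2 F3 N (comp g (r e.1) v)| := by
  have h1 := sum_regroup hA E K (cx K x) fun j k m => |bxL o F1 F2 F3 ⟨k, m⟩
    (comp g (r j) v)|
  refine le_trans ?_ (add_le_add le_rfl h1)
  unfold cosA cosG
  rw [← sum_add_distrib]
  refine sum_le_sum fun k hk => ?_
  rw [mem_Icc] at hk
  rw [mul_sum, mul_sum, ← sum_add_distrib]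
  refine sum_le_sum fun m _ => ?_
  rw [← htop]
  refine (mul_le_mul_of_nonneg_left (cut_box hw g v hk.2 (bx0 o m) _ _ _)
    (by positivity)).trans (le_of_eq ?_)
  rw [mul_add, mul_sum]
  congr 1
  refine sum_congr rfl fun j hj => ?_
  rw [mem_Icc] at hj
  by_cases h : E j (ix (j - k) m.1) (ix (j - k) m.2.1)
  · rw [if_pos h, abs_bxL]
  · rw [if_neg h, loc_comp_zero (fun a ha b hb => ?_), abs_zero, mul_zero]
    refine hE j a b ?_
    rw [mem_iv] at ha hb
    rw [← ha, ← hb, ix_ix, ix_ix, show k + (j - k) = j by omega] at h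
    exact h

/-- the process of `H70.Proc` -/
theorem cut_cost_az {A : ℕ → Pt → Prop} (hA : Her A) {K : ℕ} (rm : H70.Rul V) (th : H70.Thr V)
    (u : ℤ → ℤ → V) (g : ℤ × ℤ → ℝ) (v : ℤ → ℤ → V) (o : ℤ) (x : Pt)
    (F1 F2 F3 : ℕ → Pt → Pt → ℝ) :
    cosA A o K x (comp g u v) F1 F2 F3 ≤
      cosG A o K x (fun k => comp g (H70.az rm th K u k) v) F1 F2 F3 +
      ∑ e ∈ evs (H70.EvA rm th K u) K (cx K x), ∑ m ∈ thr A K (cx K x) e, ∑ N ∈ bel A e m,
        |bxL o F1 F2 F3 N (comp g (H70.ra rm th K u e.1) v)| :=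
  cut_cost hA (fun k x y => H70.az_succ rm th K u k x y) (H70.az_top rm th K u le_rfl)
    (fun _ _ _ h => H70.ra_of_not rm th K u h) g v o x F1 F2 F3

end cut

/-! ### The alive cubes -/

theorem cst_her (Λ : ℝ) (u : Tri) (K : ℕ) : Her fun k z => ¬ cst Λ u K k z := by
  intro k j hkj m h
  have h1 := cst_up (Λ := Λ) (u := u) (K := K) (l := j) h hkj
  have h2 : cx (j - k) m = cx j (crn k m) := by
    unfold cx crn
    have e : ∀ a : ℤ, ix j (2 ^ k * a) = ix (j - k) a := by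
      intro a
      have h3 := ix_ix k (j - k) (2 ^ k * a)
      rw [ix_corner, show k + (j - k) = j by omega] at h3
      exact h3.symm
    rw [e, e, e]
  rw [h2]
  intro h4
  exact h1 ((cst_crn Λ u K j (crn k m)).1 h4)

/-- intersections of hereditary families -/
theorem Her.and {A B : ℕ → Pt → Prop} (hA : Her A) (hB : Her B) : Her fun k z => A k z ∧ B k z :=
  fun k j h m hm => ⟨hA k j h m hm.1, hB k j h m hm.2⟩

end

end Vale.Agent.P141.H579
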