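import Vale.Agent.P141.H48.Gen1

/-!
# P141, line (A), top: generations for the pair weight with one preferred term

`X13`: the term of the pair weight with the `L²` norm on the edge `13`.  The weight
`wK k1 k2 = card (k1 X13 + k2 pw3)` has the same tail estimate as the pair weight, so one
generation at the cost `P0` gives everything at the cost `2 P0` (`genK`).
-/

namespace Vale.Agent.P141.H579

open Finset Vale.Agent.P141.PL
open Vale.Agent.P141.H315 (Grid)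
open Vale.Agent.P141.PL.H315 (cube3 atm Tri A2 A2_nonneg avg avg_nonneg e12 e13 e23 card_cube3
  mem_cube3 gz card_cube3_pos)
open Vale.Agent.P141.H922 (n2 n4 nN pw3 wP n2_nonneg n4_nonneg nN_nonneg wP_nonneg n2_e12 n2_e13
  n2_e23 n4_e12 n4_e13 n4_e23 nN_e12 nN_e13 nN_e23 pw3_nonneg n2_le_n4)
open Vale.Agent.P141.PL.H990 (Rule ofCond)
open Vale.Agent.P141.H48 (cst bg A4 rlP rlP_S Big_of_cst Lam0)

noncomputable section

open scoped Classical

/-- the term of the pair weight with the `L²` norm on the edge `13` -/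
def X13 (Q : Finset (ℤ × ℤ × ℤ)) (u : Tri) : ℝ :=
  nN Q (e12 u.1) * nN Q (e23 u.2.2) * n2 Q (e13 u.2.1)

theorem X13_nonneg (Q : Finset (ℤ × ℤ × ℤ)) (u : Tri) : 0 ≤ X13 Q u :=
  mul_nonneg (mul_nonneg (nN_nonneg _ _) (nN_nonneg _ _)) (n2_nonneg _ _)

/-- the weight with the preferred term -/
def wK (k1 k2 : ℝ) (Q : Finset (ℤ × ℤ × ℤ)) (u : Tri) : ℝ :=
  Q.card * (k1 * X13 Q u + k2 * pw3 Q u)

theorem wK_nonneg {k1 k2 : ℝ} (h1 : 0 ≤ k1) (h2 : 0 ≤ k2) (Q : Finset (ℤ × ℤ × ℤ)) (u : Tri) :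
    0 ≤ wK k1 k2 Q u :=
  mul_nonneg (Nat.cast_nonneg _) (add_nonneg (mul_nonneg h1 (X13_nonneg Q u))
    (mul_nonneg h2 (pw3_nonneg Q u)))

/-- the preferred term of the running maxima -/
def xM (l : ℕ) (u : Tri) (k : ℕ) (q : ℤ × ℤ × ℤ) : ℝ :=
  mN l u.1 k (q.1, q.2.1) * mN l u.2.2 k (q.2.1, q.2.2) * m2 l u.2.1 k (q.1, q.2.2)

theorem X13_le_xM {l : ℕ} (u : Tri) {k j : ℕ} (h1 : k ≤ j) (h2 : j ≤ l) (q : ℤ × ℤ × ℤ) :
    X13 (cube3 j q) u ≤ xM l u k q := by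
  unfold X13 xM
  rw [nN_e12, nN_e23, n2_e13]
  exact mul_le_mul (mul_le_mul (nN_le_mN u.1 h1 h2 (q.1, q.2.1))
    (nN_le_mN u.2.2 h1 h2 (q.2.1, q.2.2)) (nN_nonneg _ _) (mN_nonneg _ _ _ _))
    (le_m2 u.2.1 h1 h2 (q.1, q.2.2)) (n2_nonneg _ _)
    (mul_nonneg (mN_nonneg _ _ _ _) (mN_nonneg _ _ _ _))

theorem xM_eq (l : ℕ) (u : Tri) (q : ℤ × ℤ × ℤ) : xM l u 0 q =
    GG (1 / 2) (1 / 2) 1 0 (1 / 2) (1 / 2) l u q := by
  unfold xM GG
  rw [mN_eq, mN_eq, m2_eq]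
  ring

theorem X13_eq (l : ℕ) (u : Tri) (p : ℤ × ℤ × ℤ) : X13 (cube3 l p) u =
    NNN (1 / 2) (1 / 2) 1 0 (1 / 2) (1 / 2) l u p := by
  unfold X13 NNN sq
  rw [nN_e12, nN_e23, n2_e13, nN_eq, nN_eq]
  conv_lhs => rw [n2_eq _ u.2.1]
  ring

/-- **Tail estimate for the preferred term.** -/
theorem tail_xM {L : ℝ} (hL : 1 ≤ L) (l : ℕ) (u : Tri) (p : ℤ × ℤ × ℤ) {S : Finset (ℤ × ℤ × ℤ)}
    (hS : S ⊆ cube3 l p) (hB : ∀ q ∈ S, Big L l u p q) :
    ∑ q ∈ S, xM l u 0 q ≤ 1153 ^ 3 * L ^ (-(1 / 60) : ℝ) * 8 ^ l * X13 (cube3 l p) u := by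
  have hR : 0 ≤ 1153 ^ 3 * L ^ (-(1 / 60) : ℝ) * 8 ^ l * X13 (cube3 l p) u :=
    mul_nonneg (by positivity) (X13_nonneg _ _)
  have hsq : ∀ q ∈ S, (q.1, q.2.1) ∈ sq l (p.1, p.2.1) ∧ (q.1, q.2.2) ∈ sq l (p.1, p.2.2) ∧
      (q.2.1, q.2.2) ∈ sq l (p.2.1, p.2.2) := by
    intro q hq
    have hm := mem_cube3.1 (hS hq)
    exact ⟨mem_product.2 ⟨hm.1, hm.2.1⟩, mem_product.2 ⟨hm.1, hm.2.2⟩,
      mem_product.2 ⟨hm.2.1, hm.2.2⟩⟩
  by_cases h1 : n2 (sq l (p.1, p.2.1)) u.1 = 0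
  · refine le_trans (le_of_eq (sum_eq_zero fun q hq => ?_)) hR
    obtain ⟨z1, z2⟩ := m_zero_of (k := 0) (zero_of_n2 h1) (hsq q hq).1
    unfold xM mN
    rw [z1, z2]
    simp
  by_cases h2 : n2 (sq l (p.1, p.2.2)) u.2.1 = 0
  · refine le_trans (le_of_eq (sum_eq_zero fun q hq => ?_)) hR
    obtain ⟨z1, z2⟩ := m_zero_of (k := 0) (zero_of_n2 h2) (hsq q hq).2.1
    unfold xM mN
    rw [z1]
    simp
  by_cases h3 : n2 (sq l (p.2.1, p.2.2)) u.2.2 = 0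
  · refine le_trans (le_of_eq (sum_eq_zero fun q hq => ?_)) hR
    obtain ⟨z1, z2⟩ := m_zero_of (k := 0) (zero_of_n2 h3) (hsq q hq).2.2
    unfold xM mN
    rw [z1, z2]
    simp
  have p1 : 0 < n2 (sq l (p.1, p.2.1)) u.1 := lt_of_le_of_ne (n2_nonneg _ _) (Ne.symm h1)
  have p2 : 0 < n2 (sq l (p.1, p.2.2)) u.2.1 := lt_of_le_of_ne (n2_nonneg _ _) (Ne.symm h2)
  have p3 : 0 < n2 (sq l (p.2.1, p.2.2)) u.2.2 := lt_of_le_of_ne (n2_nonneg _ _) (Ne.symm h3)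
  have q1 := p1.trans_le (n2_le_n4 _ u.1)
  have q2 := p2.trans_le (n2_le_n4 _ u.2.1)
  have q3 := p3.trans_le (n2_le_n4 _ u.2.2)
  have hN : 0 < NNN (1 / 60) (1 / 60) (1 / 60) (1 / 60) (1 / 60) (1 / 60) l u p := by
    unfold NNN nn
    positivity
  have hB' : ∀ q ∈ S, L ^ (1 / 60 : ℝ) *
      NNN (1 / 60) (1 / 60) (1 / 60) (1 / 60) (1 / 60) (1 / 60) l u p ≤
      GG (1 / 60) (1 / 60) (1 / 60) (1 / 60) (1 / 60) (1 / 60) l u q :=
    fun q hq => GG_big (by norm_num) hL (hS hq) (hB q hq)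
  have hL0 : 0 < L := by linarith
  have t2 := tail_one (a := 1 / 2) (b := 1 / 2) (c := 1) (d := 0) (e := 1 / 2) (f := 1 / 2)
    (δ := 1 / 60) (by norm_num) (by norm_num) (by norm_num) le_rfl (by norm_num) (by norm_num)
    (by norm_num) hL0 (tri13 (by norm_num) (by norm_num) (by norm_num) (by norm_num)
      (by norm_num) (by norm_num) (by norm_num) (by norm_num) (by norm_num) l u p) hN hS hB'
  rw [X13_eq]
  rw [sum_congr rfl fun q _ => xM_eq l u q]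
  exact t2

/-- **The stopped weight**, preferred term. -/
theorem stopped_X13 {L : ℝ} (hL : 1 ≤ L) (hL' : 1153 ^ 3 * L ^ (-(1 / 60) : ℝ) ≤ 1 / 2)
    (hΛ : 1 ≤ L ^ 4) (u : Tri) (K : ℕ) (x : Pt) :
    ∑ z ∈ cube3 K x with cst (L ^ 4) u K 0 z, X13 (cube3 ((rlP hΛ u K).m z) z) u ≤
      1 / 2 * ((cube3 K x).card * X13 (cube3 K x) u) := by
  have h1 : ∑ z ∈ cube3 K x with cst (L ^ 4) u K 0 z, X13 (cube3 ((rlP hΛ u K).m z) z) u ≤
      ∑ z ∈ cube3 K x with cst (L ^ 4) u K 0 z, xM K u 0 z := by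
    refine sum_le_sum fun z hz => ?_
    rw [mem_filter] at hz
    have hlt := (rlP hΛ u K).m_lt ((rlP_S hΛ u K 0 z).2 hz.2)
    exact X13_le_xM u (Nat.zero_le _) hlt.le z
  have h2 := tail_xM hL K u x (filter_subset (fun z => cst (L ^ 4) u K 0 z) (cube3 K x))
    fun q hq => Big_of_cst hL (mem_filter.1 hq).1 (mem_filter.1 hq).2
  have h8 : ((cube3 K x).card : ℝ) = 8 ^ K := by
    rw [card_cube3]
    push_cast
    ring
  refine h1.trans (h2.trans ?_)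
  rw [h8, mul_assoc]
  exact mul_le_mul_of_nonneg_right hL' (mul_nonneg (by positivity) (X13_nonneg _ _))

/-- the stopped weight, both terms -/
theorem stopped_wK {k1 k2 : ℝ} (hk1 : 0 ≤ k1) (hk2 : 0 ≤ k2) {L : ℝ} (hL : 1 ≤ L)
    (hL' : 1153 ^ 3 * L ^ (-(1 / 60) : ℝ) ≤ 1 / 2)
    (hΛ : 1 ≤ L ^ 4) (u : Tri) (K : ℕ) (x : Pt) :
    ∑ z ∈ cube3 K x with cst (L ^ 4) u K 0 z, (k1 * X13 (cube3 ((rlP hΛ u K).m z) z) u +
      k2 * pw3 (cube3 ((rlP hΛ u K).m z) z) u) ≤ 1 / 2 * wK k1 k2 (cube3 K x) u := by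
  have h1 := mul_le_mul_of_nonneg_left (stopped_X13 hL hL' hΛ u K x) hk1
  have h2 := mul_le_mul_of_nonneg_left (H48.stopped_weightP hL hL' hΛ u K x) hk2
  rw [sum_add_distrib, ← mul_sum, ← mul_sum]
  unfold wK
  linarith

/-- **Generations for the weight with the preferred term.** -/
def GenK (Λ : ℝ) : Prop :=
  ∀ k1 k2 : ℝ, 0 ≤ k1 → 0 ≤ k2 → ∀ P0 : ℝ, 0 ≤ P0 → ∀ (u : Tri) (c : ℕ → Pt → ℝ) (n : ℕ),
    (∀ K ≤ n, ∀ x, ∑ k ∈ range (K + 1), ∑ z ∈ cube3 K x with ¬ cst Λ u K k z, c k z ≤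
      P0 * wK k1 k2 (cube3 K x) u) →
    ∀ K ≤ n, ∀ x, ∑ k ∈ range (K + 1), ∑ z ∈ cube3 K x, c k z ≤ 2 * P0 * wK k1 k2 (cube3 K x) u

theorem genK_of {L : ℝ} (hL : 1 ≤ L) (hL' : 1153 ^ 3 * L ^ (-(1 / 60) : ℝ) ≤ 1 / 2) :
    GenK (L ^ 4) := by
  have hΛ : 1 ≤ L ^ 4 := one_le_pow₀ hL
  intro k1 k2 hk1 hk2 P0 hP0 u c n h K
  induction K using Nat.strong_induction_on with
  | _ K ih =>
    intro hK x
    set R := rlP hΛ u K with hR
    have e1 : ∑ k ∈ range (K + 1), ∑ z ∈ cube3 K x, c k z =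
        (∑ k ∈ range (K + 1), ∑ z ∈ cube3 K x with ¬ cst (L ^ 4) u K k z, c k z) +
        ∑ k ∈ range (K + 1), ∑ z ∈ cube3 K x with cst (L ^ 4) u K k z, c k z := by
      rw [← sum_add_distrib]
      refine sum_congr rfl fun k _ => ?_
      rw [add_comm]
      exact (sum_filter_add_sum_filter_not _ _ _).symm
    have e2 : ∑ k ∈ range (K + 1), ∑ z ∈ cube3 K x with cst (L ^ 4) u K k z, c k z =
        ∑ z ∈ gz.cube K x with R.S 0 z, ∑ k ∈ range (R.m z + 1), c k z := by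
      have e3 : ∀ k ∈ range (K + 1), ∑ z ∈ cube3 K x with cst (L ^ 4) u K k z, c k z =
          ∑ z ∈ gz.cube K x with R.S 0 z, if k ≤ R.m z then c k z else 0 := by
        intro k _
        rw [← sum_filter, filter_filter]
        refine sum_congr ?_ fun _ _ => rfl
        ext z
        simp only [mem_filter]
        refine and_congr_right fun _ => ?_
        constructor
        · intro hs
          have hs' := (rlP_S hΛ u K k z).2 hs
          exact ⟨R.mono_le (Nat.zero_le k) hs', R.le_m hs'⟩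
        · rintro ⟨hs, hk⟩
          exact (rlP_S hΛ u K k z).1 (R.mono_le hk (R.S_m hs))
      rw [sum_congr rfl e3, sum_comm]
      refine sum_congr rfl fun z hz => ?_
      have hlt := R.m_lt (mem_filter.mp hz).2
      rw [← sum_filter]
      refine sum_congr ?_ fun _ _ => rfl
      ext k
      simp only [mem_filter, mem_range]
      omega
    have e4 : ∑ z ∈ gz.cube K x with R.S 0 z, ∑ k ∈ range (R.m z + 1), c k z ≤
        ∑ z ∈ gz.cube K x with R.S 0 z, 2 * P0 * (k1 * X13 (cube3 (R.m z) z) u +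
          k2 * pw3 (cube3 (R.m z) z) u) := by
      refine R.sum_stopped_le (k₀ := K) le_rfl (a := fun m z => ∑ k ∈ range (m + 1), c k z)
        (b := fun m z => 2 * P0 * (k1 * X13 (cube3 m z) u + k2 * pw3 (cube3 m z) u))
        fun k hk y _ => ?_
      have h3 := ih k hk (by omega) y
      rw [sum_comm] at h3
      refine h3.trans_eq ?_
      have h4 : ∀ z ∈ gz.cube k y, 2 * P0 * (k1 * X13 (cube3 k z) u + k2 * pw3 (cube3 k z) u) =
          2 * P0 * (k1 * X13 (cube3 k y) u + k2 * pw3 (cube3 k y) u) :=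
        fun z hz => by rw [show cube3 k z = cube3 k y from gz.eq_of_mem k y z hz]
      rw [sum_congr rfl h4, sum_const, nsmul_eq_mul]
      unfold wK
      show _ = ((cube3 k y).card : ℝ) * _
      ring
    have e5 : ∑ z ∈ gz.cube K x with R.S 0 z, 2 * P0 * (k1 * X13 (cube3 (R.m z) z) u +
          k2 * pw3 (cube3 (R.m z) z) u) ≤ P0 * wK k1 k2 (cube3 K x) u := by
      rw [← mul_sum]
      have h5 := stopped_wK hk1 hk2 hL hL' hΛ u K x
      have h6 : ∑ z ∈ gz.cube K x with R.S 0 z, (k1 * X13 (cube3 (R.m z) z) u +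
          k2 * pw3 (cube3 (R.m z) z) u) =
          ∑ z ∈ cube3 K x with cst (L ^ 4) u K 0 z, (k1 * X13 (cube3 ((rlP hΛ u K).m z) z) u +
            k2 * pw3 (cube3 ((rlP hΛ u K).m z) z) u) := by
        refine sum_congr ?_ fun _ _ => rfl
        ext z
        simp only [mem_filter]
        exact and_congr_right fun _ => rlP_S hΛ u K 0 z
      rw [h6]
      have h7 := mul_le_mul_of_nonneg_left h5 (by positivity : 0 ≤ 2 * P0)
      refine h7.trans_eq ?_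
      ring
    rw [e1, e2]
    calc _ ≤ P0 * wK k1 k2 (cube3 K x) u + P0 * wK k1 k2 (cube3 K x) u :=
          add_le_add (h K hK x) (e4.trans e5)
      _ = _ := by ring

/-- **EN1 for the weight with the preferred term**, at the landed threshold. -/
theorem genK : GenK Lam0 := by
  refine genK_of (L := (2 * 1153 ^ 3) ^ 60) (one_le_pow₀ (by norm_num)) ?_
  have h : (((2 * 1153 ^ 3 : ℝ)) ^ 60) ^ (-(1 / 60) : ℝ) = (2 * 1153 ^ 3)⁻¹ := by
    rw [Real.rpow_neg (by positivity), ← Real.rpow_natCast, ← Real.rpow_mul (by positivity)]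
    norm_num
  rw [h]
  norm_num

end

end Vale.Agent.P141.H579
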