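import Vale.Agent.P141.H922.PairW

/-!
# P141, weight module: Hoelder and Finner inequalities for averages, running maxima

`avg_interp`: Hoelder for averages in interpolation form; `finner`: the triangle inequality of
Finner with the exponents `(5/2, 5/2, 5/3)` for averages over a box; `rmax f k l`: the maximum of
`f` over the scales `k .. l`; `chain`: geometric sum over the scales at which a monotone quantity
grows by a factor.
-/

namespace Vale.Agent.P141.H579

open Finset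
open Vale.Agent.P141.PL.H315 (avg avg_nonneg)

noncomputable section

/-! ### Averages -/

section avgs

variable {X Y Z : Type*}

theorem avg_zero_of {Q : Finset X} {f : X → ℝ} (h : ∀ x ∈ Q, f x = 0) : avg Q f = 0 := by
  unfold avg
  rw [sum_eq_zero h, mul_zero]

theorem avg_congr' {Q : Finset X} {f g : X → ℝ} (h : ∀ x ∈ Q, f x = g x) :
    avg Q f = avg Q g := by
  unfold avg
  rw [sum_congr rfl h]

theorem avg_mono' {Q : Finset X} {f g : X → ℝ} (h : ∀ x ∈ Q, f x ≤ g x) :
    avg Q f ≤ avg Q g := by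
  unfold avg
  exact mul_le_mul_of_nonneg_left (sum_le_sum h) (by positivity)

theorem avg_mul_left (Q : Finset X) (c : ℝ) (f : X → ℝ) :
    avg Q (fun x => c * f x) = c * avg Q f := by
  unfold avg
  rw [← mul_sum]
  ring

theorem avg_mul_right (Q : Finset X) (f : X → ℝ) (c : ℝ) :
    avg Q (fun x => f x * c) = avg Q f * c := by
  unfold avg
  rw [← sum_mul]
  ring

theorem avg_const {Q : Finset X} (hQ : Q.Nonempty) (c : ℝ) : avg Q (fun _ => c) = c := by
  have hc : (0 : ℝ) < Q.card := by exact_mod_cast hQ.card_pos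
  unfold avg
  rw [sum_const, nsmul_eq_mul]
  field_simp

theorem avg_add' (Q : Finset X) (f g : X → ℝ) :
    avg Q (fun x => f x + g x) = avg Q f + avg Q g := by
  unfold avg
  rw [sum_add_distrib]
  ring

/-- iterated averages -/
theorem avg_prod (A : Finset X) (B : Finset Y) (f : X × Y → ℝ) :
    avg (A ×ˢ B) f = avg A fun x => avg B fun y => f (x, y) := by
  unfold avg
  rw [card_product, sum_product]
  push_cast
  rw [mul_inv, mul_sum, mul_sum]
  refine sum_congr rfl fun x _ => ?_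
  ring

/-- product of functions of different variables -/
theorem avg_prod_mul (A : Finset X) (B : Finset Y) (f : X → ℝ) (g : Y → ℝ) :
    avg (A ×ˢ B) (fun w => f w.1 * g w.2) = avg A f * avg B g := by
  rw [avg_prod]
  have : ∀ x ∈ A, (avg B fun y => f x * g y) = f x * avg B g := fun x _ => avg_mul_left B (f x) g
  rw [avg_congr' this, avg_mul_right]

/-- **Hoelder's inequality for averages, interpolation form** -/
theorem avg_interp (Q : Finset X) {u v : X → ℝ} (hu : ∀ x ∈ Q, 0 ≤ u x) (hv : ∀ x ∈ Q, 0 ≤ v x)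
    {a b : ℝ} (ha : 0 < a) (hb : 0 < b) (hab : a + b = 1) :
    avg Q (fun x => u x ^ a * v x ^ b) ≤ avg Q u ^ a * avg Q v ^ b := by
  rcases Q.eq_empty_or_nonempty with rfl | hQ
  · simp only [avg, card_empty, Nat.cast_zero, inv_zero, sum_empty, mul_zero]
    rw [Real.zero_rpow ha.ne', zero_mul]
  have hc : (0 : ℝ) < Q.card := by exact_mod_cast hQ.card_pos
  have hpq : (1 / a).HolderConjugate (1 / b) := by
    rw [Real.holderConjugate_iff]
    constructor
    · rw [lt_div_iff₀ ha]; linarith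
    · simp only [one_div, inv_inv]; exact hab
  have h := Real.inner_le_Lp_mul_Lq_of_nonneg Q (f := fun x => u x ^ a) (g := fun x => v x ^ b) hpq
    (fun x hx => Real.rpow_nonneg (hu x hx) _) (fun x hx => Real.rpow_nonneg (hv x hx) _)
  have e1 : ∑ x ∈ Q, (u x ^ a) ^ (1 / a) = ∑ x ∈ Q, u x :=
    sum_congr rfl fun x hx => by
      rw [← Real.rpow_mul (hu x hx), mul_one_div_cancel ha.ne', Real.rpow_one]
  have e2 : ∑ x ∈ Q, (v x ^ b) ^ (1 / b) = ∑ x ∈ Q, v x :=
    sum_congr rfl fun x hx => by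
      rw [← Real.rpow_mul (hv x hx), mul_one_div_cancel hb.ne', Real.rpow_one]
  simp only [e1, e2, one_div_one_div] at h
  have hsu : 0 ≤ ∑ x ∈ Q, u x := sum_nonneg hu
  have hsv : 0 ≤ ∑ x ∈ Q, v x := sum_nonneg hv
  unfold avg
  rw [Real.mul_rpow (by positivity) hsu, Real.mul_rpow (by positivity) hsv]
  have e3 : ((Q.card : ℝ)⁻¹) ^ a * ((Q.card : ℝ)⁻¹) ^ b = (Q.card : ℝ)⁻¹ := by
    rw [← Real.rpow_add (by positivity), hab, Real.rpow_one]
  calc (Q.card : ℝ)⁻¹ * ∑ x ∈ Q, u x ^ a * v x ^ b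
      ≤ (Q.card : ℝ)⁻¹ * ((∑ x ∈ Q, u x) ^ a * (∑ x ∈ Q, v x) ^ b) :=
        mul_le_mul_of_nonneg_left h (by positivity)
    _ = (((Q.card : ℝ)⁻¹) ^ a * ((Q.card : ℝ)⁻¹) ^ b) *
          ((∑ x ∈ Q, u x) ^ a * (∑ x ∈ Q, v x) ^ b) := by rw [e3]
    _ = _ := by ring

/-- Jensen for averages -/
theorem avg_rpow_le' (Q : Finset X) {u : X → ℝ} (hu : ∀ x ∈ Q, 0 ≤ u x) {a : ℝ} (ha : 0 < a)
    (ha1 : a < 1) : avg Q (fun x => u x ^ a) ≤ avg Q u ^ a := by
  rcases Q.eq_empty_or_nonempty with rfl | hQ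
  · simp only [avg, card_empty, Nat.cast_zero, inv_zero, sum_empty, mul_zero]
    rw [Real.zero_rpow ha.ne']
  have h := avg_interp Q hu (fun _ _ => zero_le_one (α := ℝ)) ha (b := 1 - a) (by linarith)
    (by ring)
  simp only [Real.one_rpow, mul_one] at h
  rw [avg_const hQ, Real.one_rpow, mul_one] at h
  exact h

/-- **Finner's inequality on the triangle**, exponents `5/2, 5/2, 5/3`. -/
theorem finner (A : Finset X) (B : Finset Y) (C : Finset Z) {f : X × Y → ℝ} {g : X × Z → ℝ}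
    {h : Y × Z → ℝ} (hf : ∀ w, 0 ≤ f w) (hg : ∀ w, 0 ≤ g w) (hh : ∀ w, 0 ≤ h w) :
    avg (A ×ˢ B ×ˢ C) (fun p => f (p.1, p.2.1) * g (p.1, p.2.2) * h (p.2.1, p.2.2)) ≤
      (avg (A ×ˢ B) fun w => f w ^ (5 / 2 : ℝ)) ^ (2 / 5 : ℝ) *
      (avg (A ×ˢ C) fun w => g w ^ (5 / 2 : ℝ)) ^ (2 / 5 : ℝ) *
      (avg (B ×ˢ C) fun w => h w ^ (5 / 3 : ℝ)) ^ (3 / 5 : ℝ) := by
  rw [avg_prod A (B ×ˢ C)]
  set F : X → ℝ := fun x => avg B fun y => f (x, y) ^ (5 / 2 : ℝ) with hF
  set G : X → ℝ := fun x => avg C fun z => g (x, z) ^ (5 / 2 : ℝ) with hG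
  set H : ℝ := avg (B ×ˢ C) fun w => h w ^ (5 / 3 : ℝ) with hH
  have hF0 : ∀ x, 0 ≤ F x := fun x => avg_nonneg fun y _ => Real.rpow_nonneg (hf _) _
  have hG0 : ∀ x, 0 ≤ G x := fun x => avg_nonneg fun y _ => Real.rpow_nonneg (hg _) _
  have hH0 : 0 ≤ H := avg_nonneg fun y _ => Real.rpow_nonneg (hh _) _
  have hx : ∀ x ∈ A, (avg (B ×ˢ C) fun w => f (x, w.1) * g (x, w.2) * h (w.1, w.2)) ≤
      F x ^ (2 / 5 : ℝ) * G x ^ (2 / 5 : ℝ) * H ^ (3 / 5 : ℝ) := by
    intro x _
    have h1 := avg_interp (B ×ˢ C)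
      (u := fun w => f (x, w.1) ^ (5 / 2 : ℝ) * g (x, w.2) ^ (5 / 2 : ℝ))
      (v := fun w => h w ^ (5 / 3 : ℝ))
      (fun w _ => mul_nonneg (Real.rpow_nonneg (hf _) _) (Real.rpow_nonneg (hg _) _))
      (fun w _ => Real.rpow_nonneg (hh _) _) (a := 2 / 5) (b := 3 / 5) (by norm_num) (by norm_num)
      (by norm_num)
    rw [avg_prod_mul B C (fun y => f (x, y) ^ (5 / 2 : ℝ)) (fun z => g (x, z) ^ (5 / 2 : ℝ))] at h1
    rw [Real.mul_rpow (hF0 x) (hG0 x)] at h1
    refine le_trans (le_of_eq (avg_congr' fun w _ => ?_)) h1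
    rw [Real.mul_rpow (Real.rpow_nonneg (hf _) _) (Real.rpow_nonneg (hg _) _),
      ← Real.rpow_mul (hf _), ← Real.rpow_mul (hg _), ← Real.rpow_mul (hh _)]
    norm_num
  refine (avg_mono' hx).trans ?_
  rw [avg_mul_right]
  refine mul_le_mul_of_nonneg_right ?_ (Real.rpow_nonneg hH0 _)
  -- the average over `x`
  have h2 : avg A (fun x => F x ^ (2 / 5 : ℝ) * G x ^ (2 / 5 : ℝ)) ≤
      (avg A fun x => F x ^ (1 / 2 : ℝ) * G x ^ (1 / 2 : ℝ)) ^ (4 / 5 : ℝ) := by
    have h3 := avg_rpow_le' A (u := fun x => F x ^ (1 / 2 : ℝ) * G x ^ (1 / 2 : ℝ))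
      (fun x _ => mul_nonneg (Real.rpow_nonneg (hF0 x) _) (Real.rpow_nonneg (hG0 x) _))
      (a := 4 / 5) (by norm_num) (by norm_num)
    refine le_trans (le_of_eq (avg_congr' fun x _ => ?_)) h3
    rw [Real.mul_rpow (Real.rpow_nonneg (hF0 x) _) (Real.rpow_nonneg (hG0 x) _),
      ← Real.rpow_mul (hF0 x), ← Real.rpow_mul (hG0 x)]
    norm_num
  have h4 := avg_interp A (fun x _ => hF0 x) (fun x _ => hG0 x) (a := 1 / 2) (b := 1 / 2)
    (by norm_num) (by norm_num) (by norm_num)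
  have hAF : 0 ≤ avg A F := avg_nonneg fun x _ => hF0 x
  have hAG : 0 ≤ avg A G := avg_nonneg fun x _ => hG0 x
  refine h2.trans ((Real.rpow_le_rpow (avg_nonneg fun x _ => mul_nonneg
    (Real.rpow_nonneg (hF0 x) _) (Real.rpow_nonneg (hG0 x) _)) h4 (by norm_num)).trans ?_)
  rw [Real.mul_rpow (Real.rpow_nonneg hAF _) (Real.rpow_nonneg hAG _), ← Real.rpow_mul hAF,
    ← Real.rpow_mul hAG, avg_prod A B, avg_prod A C]
  norm_num
  exact le_rfl

end avgs

/-! ### Running maxima over scales -/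

/-- the maximum of `f` over the scales `k .. l` (at least `0`) -/
def rmax (f : ℕ → ℝ) (k l : ℕ) : ℝ := (((Icc k l).sup fun j => Real.toNNReal (f j) : NNReal) : ℝ)

theorem rmax_nonneg (f : ℕ → ℝ) (k l : ℕ) : 0 ≤ rmax f k l := NNReal.coe_nonneg _

theorem le_rmax (f : ℕ → ℝ) {k l j : ℕ} (h1 : k ≤ j) (h2 : j ≤ l) : f j ≤ rmax f k l := by
  unfold rmax
  have h : Real.toNNReal (f j) ≤ (Icc k l).sup fun j => Real.toNNReal (f j) :=
    Finset.le_sup (f := fun j => Real.toNNReal (f j)) (mem_Icc.2 ⟨h1, h2⟩)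
  exact (Real.le_coe_toNNReal _).trans (by exact_mod_cast h)

theorem rmax_le {f : ℕ → ℝ} {k l : ℕ} {c : ℝ} (hc : 0 ≤ c) (h : ∀ j, k ≤ j → j ≤ l → f j ≤ c) :
    rmax f k l ≤ c := by
  unfold rmax
  have : ((Icc k l).sup fun j => Real.toNNReal (f j)) ≤ c.toNNReal := by
    refine Finset.sup_le fun j hj => ?_
    rw [mem_Icc] at hj
    exact Real.toNNReal_le_toNNReal (h j hj.1 hj.2)
  calc (((Icc k l).sup fun j => Real.toNNReal (f j) : NNReal) : ℝ) ≤ (c.toNNReal : ℝ) := by
        exact_mod_cast this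
    _ = c := Real.coe_toNNReal c hc

theorem rmax_anti (f : ℕ → ℝ) {k k' : ℕ} (h : k ≤ k') (l : ℕ) : rmax f k' l ≤ rmax f k l :=
  rmax_le (rmax_nonneg _ _ _) fun _ h1 h2 => le_rmax f (h.trans h1) h2

theorem rmax_self {f : ℕ → ℝ} (l : ℕ) (hf : 0 ≤ f l) : rmax f l l = f l := by
  refine le_antisymm (rmax_le hf fun j h1 h2 => ?_) (le_rmax f le_rfl le_rfl)
  obtain rfl : j = l := le_antisymm h2 h1
  exact le_rfl

theorem rmax_congr {f g : ℕ → ℝ} {k l : ℕ} (h : ∀ j, k ≤ j → j ≤ l → f j = g j) :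
    rmax f k l = rmax g k l := by
  refine le_antisymm ?_ ?_
  · exact rmax_le (rmax_nonneg _ _ _) fun j h1 h2 => (h j h1 h2).le.trans (le_rmax g h1 h2)
  · exact rmax_le (rmax_nonneg _ _ _) fun j h1 h2 => (h j h1 h2).ge.trans (le_rmax f h1 h2)

/-! ### The geometric sum along a path -/

/-- **Sum over the scales where a monotone quantity grows by the factor `c`.** -/
theorem chain {c : ℝ} (hc : 1 < c) (P : ℕ → ℝ) (D : ℕ → Prop) [DecidablePred D] (l : ℕ)
    (h0 : 0 ≤ P l) (hmono : ∀ k < l, P (k + 1) ≤ P k) (hD : ∀ k < l, D k → c * P (k + 1) ≤ P k) :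
    ∑ k ∈ range (l + 1), (if D k then P k else 0) ≤ c / (c - 1) * P 0 := by
  have hpos : ∀ d ≤ l, 0 ≤ P (l - d) := by
    intro d
    induction d with
    | zero => intro _; simpa using h0
    | succ d ih =>
      intro hd
      have h1 := hmono (l - (d + 1)) (by omega)
      rw [show l - (d + 1) + 1 = l - d by omega] at h1
      exact (ih (by omega)).trans h1
  have hc1 : 0 < c - 1 := by linarith
  have key : ∀ d ≤ l, ∑ k ∈ Icc (l - d) l, (if D k then P k else 0) ≤
      c / (c - 1) * P (l - d) := by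
    intro d
    induction d with
    | zero =>
      intro _
      rw [Nat.sub_zero, Icc_self, sum_singleton]
      have h1 : P l ≤ c / (c - 1) * P l := by
        have : 1 ≤ c / (c - 1) := by rw [le_div_iff₀ hc1]; linarith
        exact le_mul_of_one_le_left h0 this
      split_ifs
      · exact h1
      · exact h0.trans h1
    | succ d ih =>
      intro hd
      have h1 := ih (by omega)
      have hk : l - (d + 1) < l := by omega
      have e1 : l - (d + 1) + 1 = l - d := by omega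
      have e2 : Icc (l - (d + 1)) l = insert (l - (d + 1)) (Icc (l - d) l) := by
        ext j
        simp only [mem_Icc, mem_insert]
        omega
      have e3 : l - (d + 1) ∉ Icc (l - d) l := by simp only [mem_Icc]; omega
      rw [e2, sum_insert e3]
      have hp := hpos (d + 1) hd
      have hp' := hpos d (by omega)
      split_ifs with hDk
      · have h2 := hD _ hk hDk
        rw [e1] at h2
        have h3 : c / (c - 1) * P (l - d) ≤ 1 / (c - 1) * P (l - (d + 1)) := by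
          rw [div_mul_eq_mul_div, div_mul_eq_mul_div, one_mul]
          exact div_le_div_of_nonneg_right h2 hc1.le
        have h4 : P (l - (d + 1)) + 1 / (c - 1) * P (l - (d + 1)) =
            c / (c - 1) * P (l - (d + 1)) := by field_simp; ring
        linarith
      · have h2 := hmono _ hk
        rw [e1] at h2
        have : 0 ≤ c / (c - 1) := by positivity
        rw [zero_add]
        exact h1.trans (mul_le_mul_of_nonneg_left h2 this)
  have h := key l le_rfl
  rw [Nat.sub_self] at h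
  refine le_trans (le_of_eq ?_) h
  refine sum_congr ?_ fun _ _ => rfl
  ext j
  simp only [mem_range, mem_Icc]
  omega

end

end Vale.Agent.P141.H579
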