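import Vale.Agent.P141.H579.Run1
import Vale.Agent.P141.H782.Max2

/-!
# P141, weight module: the local norms of an edge function, their running maxima

For an edge function `v` and the squares `sq k w = iv k w.1 × iv k w.2`: the maxima of the local
norms `n2`, `n4` over the scales `k .. l`; the average over the square of scale `l` of `m2^θ₂ m4^θ₄` is
bounded by `(1 + 36 / e) n2^θ₂ n4^θ₄` of the square itself, `θ₂ / 2 + θ₄ / 4 = 1 - e`.
-/

namespace Vale.Agent.P141.H579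

open Finset
open Vale.Agent.P141.PL.H315 (avg avg_nonneg iv mem_iv card_iv self_mem_iv iv_eq card_pos_iv)
open Vale.Agent.P141.H922 (n2 n4 nN n2_nonneg n4_nonneg nN_nonneg n2_sq n4_four nN_sq
  avg_sq_nonneg avg_four_nonneg)
open Vale.Agent.P141.H782 (MF Sq ic weak kolmogorov le_MF MF_nonneg)

noncomputable section

/-- the dyadic square of scale `k` around a point -/
def sq (k : ℕ) (w : ℤ × ℤ) : Finset (ℤ × ℤ) := iv k w.1 ×ˢ iv k w.2

theorem mem_sq {k : ℕ} {w w' : ℤ × ℤ} :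
    w' ∈ sq k w ↔ w'.1 / 2 ^ k = w.1 / 2 ^ k ∧ w'.2 / 2 ^ k = w.2 / 2 ^ k := by
  unfold sq
  rw [mem_product, mem_iv, mem_iv]

theorem self_mem_sq (k : ℕ) (w : ℤ × ℤ) : w ∈ sq k w := mem_sq.2 ⟨rfl, rfl⟩

theorem card_sq (k : ℕ) (w : ℤ × ℤ) : (sq k w).card = 4 ^ k := by
  unfold sq
  rw [card_product, card_iv, card_iv, ← mul_pow]
  norm_num

theorem div_div_pow {k l : ℕ} (h : k ≤ l) (x : ℤ) : x / 2 ^ k / 2 ^ (l - k) = x / 2 ^ l := by
  rw [Int.ediv_ediv_of_nonneg (by positivity), ← pow_add]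
  congr 2
  omega

theorem sq_sub {k l : ℕ} (h : k ≤ l) {w w0 : ℤ × ℤ} (hw : w ∈ sq l w0) : sq k w ⊆ sq l w0 := by
  intro z hz
  rw [mem_sq] at hz hw ⊢
  rw [← div_div_pow h z.1, ← div_div_pow h z.2, hz.1, hz.2, div_div_pow h, div_div_pow h]
  exact hw

theorem sq_eq {k : ℕ} {w w' : ℤ × ℤ} (h : w' ∈ sq k w) : sq k w' = sq k w := by
  unfold sq at h ⊢
  rw [mem_product] at h
  rw [iv_eq h.1, iv_eq h.2]

/-! ### The maximal function on a square -/

/-- cut to a square -/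
def ct (l : ℕ) (w0 : ℤ × ℤ) (F : ℤ × ℤ → ℝ) (x y : ℤ) : ℝ := if (x, y) ∈ sq l w0 then F (x, y) else 0

theorem ct_nonneg {l : ℕ} {w0 : ℤ × ℤ} {F : ℤ × ℤ → ℝ} (hF : ∀ w, 0 ≤ F w) (x y : ℤ) :
    0 ≤ ct l w0 F x y := by
  unfold ct
  split_ifs
  · exact hF _
  · exact le_rfl

theorem Sq_ct {k l : ℕ} (h : k ≤ l) {w w0 : ℤ × ℤ} (hw : w ∈ sq l w0) (F : ℤ × ℤ → ℝ) :
    Sq (ct l w0 F) k (w.1 / 2 ^ k) (w.2 / 2 ^ k) = ∑ z ∈ sq k w, F z := by
  have e : sq k w = ic k (w.1 / 2 ^ k) ×ˢ ic k (w.2 / 2 ^ k) := rfl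
  unfold Sq
  rw [e, sum_product]
  refine sum_congr rfl fun x hx => sum_congr rfl fun y hy => ?_
  unfold ct
  rw [if_pos]
  refine sq_sub h hw ?_
  rw [e, mem_product]
  exact ⟨hx, hy⟩

/-- the local averages are below the maximal function -/
theorem avg_le_MF {k l : ℕ} (h : k ≤ l) {w w0 : ℤ × ℤ} (hw : w ∈ sq l w0) {F : ℤ × ℤ → ℝ}
    (hF : ∀ w, 0 ≤ F w) : avg (sq k w) F ≤ MF (ct l w0 F) l w := by
  have h1 := le_MF (F := ct l w0 F) (ct_nonneg hF) h (d1 := 0) (d2 := 0) (by norm_num)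
    (by norm_num) w
  rw [add_zero, add_zero, Sq_ct h hw] at h1
  unfold avg
  rw [card_sq]
  push_cast
  rw [mul_comm, ← div_eq_mul_inv]
  exact h1

/-- **Kolmogorov's inequality for the maximal function on a square.** -/
theorem avg_MF_le (l : ℕ) (w0 : ℤ × ℤ) {F : ℤ × ℤ → ℝ} (hF : ∀ w, 0 ≤ F w) {e : ℝ} (he : 0 < e)
    (he1 : e < 1) :
    avg (sq l w0) (fun w => MF (ct l w0 F) l w ^ (1 - e)) ≤
      (1 + 36 / e) * avg (sq l w0) F ^ (1 - e) := by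
  have ha0 : 0 ≤ avg (sq l w0) F := avg_nonneg fun w _ => hF w
  have hcard : (0 : ℝ) < (sq l w0).card := by rw [card_sq]; positivity
  have hS : Sq (ct l w0 F) l (w0.1 / 2 ^ l) (w0.2 / 2 ^ l) = (sq l w0).card * avg (sq l w0) F := by
    rw [Sq_ct le_rfl (self_mem_sq l w0)]
    unfold avg
    field_simp
  have hweak : ∀ lam : ℝ, 0 < lam → lam * (((sq l w0).filter fun w =>
      lam < MF (ct l w0 F) l w).card : ℝ) ≤ 9 * ((sq l w0).card * avg (sq l w0) F) := by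
    intro lam hl
    rw [← hS]
    refine weak (ct_nonneg hF) (fun x y hxy => ?_) hl _
    unfold ct at hxy
    by_contra hcon
    refine hxy (if_neg fun hmem => hcon ?_)
    have := mem_sq.1 hmem
    exact this
  have hne : (1 : ℝ) - e ≠ 0 := by linarith
  rcases ha0.eq_or_lt with ha | ha
  · -- everything vanishes
    rw [← ha] at hweak ⊢
    have h0 : ∀ w ∈ sq l w0, MF (ct l w0 F) l w ^ (1 - e) = 0 := by
      intro w hw
      have h1 : MF (ct l w0 F) l w = 0 := by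
        by_contra hne
        have hpos : 0 < MF (ct l w0 F) l w := lt_of_le_of_ne (MF_nonneg _ _ _) (Ne.symm hne)
        have h2 := hweak (MF (ct l w0 F) l w / 2) (by linarith)
        have h3 : 0 < (((sq l w0).filter fun w' =>
            MF (ct l w0 F) l w / 2 < MF (ct l w0 F) l w').card : ℝ) := by
          exact_mod_cast card_pos.2 ⟨w, mem_filter.2 ⟨hw, by linarith⟩⟩
        have h4 := mul_pos (by linarith : 0 < MF (ct l w0 F) l w / 2) h3
        simp only [mul_zero] at h2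
        linarith
      rw [h1, Real.zero_rpow hne]
    rw [avg_zero_of h0, Real.zero_rpow hne, mul_zero]
  · have hk := kolmogorov (sq l w0) (fun w => MF (ct l w0 F) l w) (fun w _ => MF_nonneg _ _ _)
      (B := 9 * ((sq l w0).card * avg (sq l w0) F)) (by positivity) hweak he he1.le ha
    have e1 : avg (sq l w0) F * avg (sq l w0) F ^ (-e) = avg (sq l w0) F ^ (1 - e) := by
      rw [sub_eq_add_neg, Real.rpow_add ha, Real.rpow_one]
    have e2 : avg (sq l w0) F ^ (1 - e) * ((sq l w0).card : ℝ) +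
        4 / e * (9 * ((sq l w0).card * avg (sq l w0) F)) * avg (sq l w0) F ^ (-e) =
        (sq l w0).card * ((1 + 36 / e) * avg (sq l w0) F ^ (1 - e)) := by
      rw [← e1]; ring
    rw [e2] at hk
    unfold avg
    rw [inv_mul_le_iff₀ hcard]
    exact hk

/-! ### The running maxima of the local norms -/

/-- running maximum of the local `L²` norm -/
def m2 (l : ℕ) (v : ℤ × ℤ → ℝ) (k : ℕ) (w : ℤ × ℤ) : ℝ := rmax (fun j => n2 (sq j w) v) k l

/-- running maximum of the local `L⁴` norm -/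
def m4 (l : ℕ) (v : ℤ × ℤ → ℝ) (k : ℕ) (w : ℤ × ℤ) : ℝ := rmax (fun j => n4 (sq j w) v) k l

theorem m2_nonneg (l : ℕ) (v : ℤ × ℤ → ℝ) (k : ℕ) (w : ℤ × ℤ) : 0 ≤ m2 l v k w := rmax_nonneg _ _ _

theorem m4_nonneg (l : ℕ) (v : ℤ × ℤ → ℝ) (k : ℕ) (w : ℤ × ℤ) : 0 ≤ m4 l v k w := rmax_nonneg _ _ _

theorem m2_anti (l : ℕ) (v : ℤ × ℤ → ℝ) {k k' : ℕ} (h : k ≤ k') (w : ℤ × ℤ) :
    m2 l v k' w ≤ m2 l v k w := rmax_anti _ h _

theorem m4_anti (l : ℕ) (v : ℤ × ℤ → ℝ) {k k' : ℕ} (h : k ≤ k') (w : ℤ × ℤ) :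
    m4 l v k' w ≤ m4 l v k w := rmax_anti _ h _

theorem le_m2 {l : ℕ} (v : ℤ × ℤ → ℝ) {k j : ℕ} (h1 : k ≤ j) (h2 : j ≤ l) (w : ℤ × ℤ) :
    n2 (sq j w) v ≤ m2 l v k w := le_rmax (fun j => n2 (sq j w) v) h1 h2

theorem le_m4 {l : ℕ} (v : ℤ × ℤ → ℝ) {k j : ℕ} (h1 : k ≤ j) (h2 : j ≤ l) (w : ℤ × ℤ) :
    n4 (sq j w) v ≤ m4 l v k w := le_rmax (fun j => n4 (sq j w) v) h1 h2

theorem m2_top (l : ℕ) (v : ℤ × ℤ → ℝ) (w : ℤ × ℤ) : m2 l v l w = n2 (sq l w) v :=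
  rmax_self (f := fun j => n2 (sq j w) v) l (n2_nonneg _ _)

theorem m4_top (l : ℕ) (v : ℤ × ℤ → ℝ) (w : ℤ × ℤ) : m4 l v l w = n4 (sq l w) v :=
  rmax_self (f := fun j => n4 (sq j w) v) l (n4_nonneg _ _)

/-- the running maxima only depend on the square of scale `k` -/
theorem m2_congr {k l : ℕ} (v : ℤ × ℤ → ℝ) {w w' : ℤ × ℤ} (h : w' ∈ sq k w) :
    m2 l v k w' = m2 l v k w :=
  rmax_congr fun j h1 _ => by
    have : w' ∈ sq j w := sq_sub h1 (self_mem_sq j w) h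
    simp only [sq_eq this]

theorem m4_congr {k l : ℕ} (v : ℤ × ℤ → ℝ) {w w' : ℤ × ℤ} (h : w' ∈ sq k w) :
    m4 l v k w' = m4 l v k w :=
  rmax_congr fun j h1 _ => by
    have : w' ∈ sq j w := sq_sub h1 (self_mem_sq j w) h
    simp only [sq_eq this]

theorem m2_sq_le {l : ℕ} (v : ℤ × ℤ → ℝ) {w w0 : ℤ × ℤ} (hw : w ∈ sq l w0) :
    m2 l v 0 w ^ 2 ≤ MF (ct l w0 fun z => v z ^ 2) l w := by
  have h0 := MF_nonneg (ct l w0 fun z => v z ^ 2) l w
  refine (Real.le_sqrt (m2_nonneg _ _ _ _) h0).1 ?_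
  refine rmax_le (Real.sqrt_nonneg _) fun j _ h2 => ?_
  refine Real.le_sqrt_of_sq_le ?_
  rw [n2_sq]
  exact avg_le_MF h2 hw fun _ => sq_nonneg _

theorem m4_four_le {l : ℕ} (v : ℤ × ℤ → ℝ) {w w0 : ℤ × ℤ} (hw : w ∈ sq l w0) :
    m4 l v 0 w ^ 4 ≤ MF (ct l w0 fun z => v z ^ 4) l w := by
  have h0 := MF_nonneg (ct l w0 fun z => v z ^ 4) l w
  have h1 : m4 l v 0 w ≤ √√(MF (ct l w0 fun z => v z ^ 4) l w) := by
    refine rmax_le (Real.sqrt_nonneg _) fun j _ h2 => ?_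
    refine Real.le_sqrt_of_sq_le (Real.le_sqrt_of_sq_le ?_)
    rw [← pow_mul, n4_four]
    exact avg_le_MF h2 hw fun _ => by positivity
  calc m4 l v 0 w ^ 4 ≤ √√(MF (ct l w0 fun z => v z ^ 4) l w) ^ 4 :=
        pow_le_pow_left₀ (m4_nonneg _ _ _ _) h1 4
    _ = _ := by
      rw [show (4 : ℕ) = 2 * 2 by norm_num, pow_mul, Real.sq_sqrt (Real.sqrt_nonneg _),
        Real.sq_sqrt h0]

/-- **The running maxima of the two local norms of one edge**, all powers `θ₂`, `θ₄` with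
`θ₂ / 2 + θ₄ / 4 < 1`. -/
theorem avg_mm_le (l : ℕ) (v : ℤ × ℤ → ℝ) (w0 : ℤ × ℤ) {θ2 θ4 e : ℝ} (h2 : 0 < θ2) (h4 : 0 < θ4)
    (he : 0 < e) (hs : θ2 / 2 + θ4 / 4 = 1 - e) :
    avg (sq l w0) (fun w => m2 l v 0 w ^ θ2 * m4 l v 0 w ^ θ4) ≤
      (1 + 36 / e) * (n2 (sq l w0) v ^ θ2 * n4 (sq l w0) v ^ θ4) := by
  have hs0 : 0 < 1 - e := by rw [← hs]; positivity
  set a : ℝ := θ2 / 2 / (1 - e) with ha
  set b : ℝ := θ4 / 4 / (1 - e) with hb
  have ha0 : 0 < a := by positivity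
  have hb0 : 0 < b := by positivity
  have hab : a + b = 1 := by rw [ha, hb, ← add_div, hs, div_self hs0.ne']
  set X : ℤ × ℤ → ℝ := fun w => MF (ct l w0 fun z => v z ^ 2) l w ^ (1 - e) with hX
  set Y : ℤ × ℤ → ℝ := fun w => MF (ct l w0 fun z => v z ^ 4) l w ^ (1 - e) with hY
  have hX0 : ∀ w, 0 ≤ X w := fun w => Real.rpow_nonneg (MF_nonneg _ _ _) _
  have hY0 : ∀ w, 0 ≤ Y w := fun w => Real.rpow_nonneg (MF_nonneg _ _ _) _
  have hea : (1 - e) * a = θ2 / 2 := by rw [ha, mul_div_cancel₀ _ hs0.ne']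
  have heb : (1 - e) * b = θ4 / 4 := by rw [hb, mul_div_cancel₀ _ hs0.ne']
  have h1 : avg (sq l w0) (fun w => m2 l v 0 w ^ θ2 * m4 l v 0 w ^ θ4) ≤
      avg (sq l w0) (fun w => X w ^ a * Y w ^ b) := by
    refine avg_mono' fun w hw => ?_
    have p := m2_nonneg l v 0 w
    have q := m4_nonneg l v 0 w
    refine mul_le_mul ?_ ?_ (Real.rpow_nonneg q _) (Real.rpow_nonneg (hX0 w) _)
    · have e1 : m2 l v 0 w ^ θ2 = (m2 l v 0 w ^ 2) ^ (θ2 / 2) := by
        rw [← Real.rpow_natCast, ← Real.rpow_mul p]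
        congr 1
        push_cast
        ring
      have e2 : X w ^ a = MF (ct l w0 fun z => v z ^ 2) l w ^ (θ2 / 2) := by
        rw [hX, ← Real.rpow_mul (MF_nonneg _ _ _), hea]
      rw [e1, e2]
      exact Real.rpow_le_rpow (by positivity) (m2_sq_le v hw) (by positivity)
    · have e1 : m4 l v 0 w ^ θ4 = (m4 l v 0 w ^ 4) ^ (θ4 / 4) := by
        rw [← Real.rpow_natCast, ← Real.rpow_mul q]
        congr 1
        push_cast
        ring
      have e2 : Y w ^ b = MF (ct l w0 fun z => v z ^ 4) l w ^ (θ4 / 4) := by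
        rw [hY, ← Real.rpow_mul (MF_nonneg _ _ _), heb]
      rw [e1, e2]
      exact Real.rpow_le_rpow (by positivity) (m4_four_le v hw) (by positivity)
  have h2' := avg_interp (sq l w0) (fun w _ => hX0 w) (fun w _ => hY0 w) ha0 hb0 hab
  have he1 : e < 1 := by linarith
  have h3 : avg (sq l w0) X ≤ (1 + 36 / e) * (n2 (sq l w0) v ^ 2) ^ (1 - e) := by
    rw [n2_sq]; exact avg_MF_le l w0 (fun _ => sq_nonneg _) he he1
  have h4' : avg (sq l w0) Y ≤ (1 + 36 / e) * (n4 (sq l w0) v ^ 4) ^ (1 - e) := by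
    rw [n4_four]; exact avg_MF_le l w0 (fun _ => by positivity) he he1
  have hAX : 0 ≤ avg (sq l w0) X := avg_nonneg fun w _ => hX0 w
  have hAY : 0 ≤ avg (sq l w0) Y := avg_nonneg fun w _ => hY0 w
  have p := n2_nonneg (sq l w0) v
  have q := n4_nonneg (sq l w0) v
  have hC : 0 ≤ 1 + 36 / e := by positivity
  refine h1.trans (h2'.trans ?_)
  have h5 := Real.rpow_le_rpow hAX h3 ha0.le
  have h6 := Real.rpow_le_rpow hAY h4' hb0.le
  refine (mul_le_mul h5 h6 (Real.rpow_nonneg hAY _) (by positivity)).trans (le_of_eq ?_)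
  rw [Real.mul_rpow hC (by positivity), Real.mul_rpow hC (by positivity),
    ← Real.rpow_mul (by positivity), hea, ← Real.rpow_mul (by positivity), heb]
  have e3 : (1 + 36 / e) ^ a * (1 + 36 / e) ^ b = 1 + 36 / e := by
    rw [← Real.rpow_add (by positivity), hab, Real.rpow_one]
  have e4 : (n2 (sq l w0) v ^ 2) ^ (θ2 / 2) = n2 (sq l w0) v ^ θ2 := by
    rw [← Real.rpow_natCast, ← Real.rpow_mul p]
    congr 1
    push_cast
    ring
  have e5 : (n4 (sq l w0) v ^ 4) ^ (θ4 / 4) = n4 (sq l w0) v ^ θ4 := by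
    rw [← Real.rpow_natCast, ← Real.rpow_mul q]
    congr 1
    push_cast
    ring
  rw [e4, e5]
  calc _ = ((1 + 36 / e) ^ a * (1 + 36 / e) ^ b) *
        (n2 (sq l w0) v ^ θ2 * n4 (sq l w0) v ^ θ4) := by ring
    _ = _ := by rw [e3]

end

end Vale.Agent.P141.H579
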