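import Vale.Agent.P141.H579.Run2

/-!
# P141, weight module: the running maxima of the pair weight

`tri23`, `tri13`, `tri12`: the average over a cube of a product of powers of the running maxima of
the six local norms is bounded by the product of the same powers of the norms on the cube; the
exponents have room in all six coordinates.
`tail_pM`: the pair weight formed with the running maxima, summed over the points where one of the
six local norms exceeds `Λ` times its value on the cube, is at most `C Λ^(-1/60)` times the pair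
weight of the cube.
-/

namespace Vale.Agent.P141.H579

open Finset
open Vale.Agent.P141.PL.H315 (avg avg_nonneg iv mem_iv card_iv self_mem_iv iv_eq card_pos_iv
  cube3 mem_cube3 card_cube3 e12 e13 e23 Tri avg_nonneg)
open Vale.Agent.P141.H922 (n2 n4 nN pw3 n2_nonneg n4_nonneg nN_nonneg n2_sq n4_four nN_sq
  avg_sq_nonneg avg_four_nonneg n2_le_n4)

noncomputable section

/-! ### The other two forms of Finner's inequality -/

section finner'

variable {X Y Z : Type*}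

theorem avg_comm (A : Finset X) (B : Finset Y) (f : X → Y → ℝ) :
    (avg A fun x => avg B fun y => f x y) = avg B fun y => avg A fun x => f x y := by
  unfold avg
  simp only [mul_sum]
  rw [sum_comm]
  exact sum_congr rfl fun y _ => sum_congr rfl fun x _ => by ring

theorem avg_swap (A : Finset X) (B : Finset Y) (f : X × Y → ℝ) :
    avg (B ×ˢ A) (fun w => f (w.2, w.1)) = avg (A ×ˢ B) f := by
  rw [avg_prod, avg_prod, avg_comm]

theorem avg_swap12 (A : Finset X) (B : Finset Y) (C : Finset Z) (F : X × Y × Z → ℝ) :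
    avg (B ×ˢ A ×ˢ C) (fun q => F (q.2.1, q.1, q.2.2)) = avg (A ×ˢ B ×ˢ C) F := by
  rw [avg_prod, avg_prod]
  have h1 : ∀ y ∈ B, (avg (A ×ˢ C) fun w => F (w.1, y, w.2)) =
      avg A fun x => avg C fun z => F (x, y, z) := fun y _ => avg_prod A C _
  have h2 : ∀ x ∈ A, (avg (B ×ˢ C) fun w => F (x, w)) =
      avg B fun y => avg C fun z => F (x, y, z) := fun x _ => avg_prod B C _
  rw [avg_congr' h1, avg_congr' h2, avg_comm]

theorem avg_swap23 (A : Finset X) (B : Finset Y) (C : Finset Z) (F : X × Y × Z → ℝ) :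
    avg (A ×ˢ C ×ˢ B) (fun q => F (q.1, q.2.2, q.2.1)) = avg (A ×ˢ B ×ˢ C) F := by
  rw [avg_prod, avg_prod]
  refine avg_congr' fun x _ => ?_
  exact avg_swap B C fun w => F (x, w)

/-- Finner's inequality, the edge `13` is the special one -/
theorem finner13 (A : Finset X) (B : Finset Y) (C : Finset Z) {f : X × Y → ℝ} {g : X × Z → ℝ}
    {h : Y × Z → ℝ} (hf : ∀ w, 0 ≤ f w) (hg : ∀ w, 0 ≤ g w) (hh : ∀ w, 0 ≤ h w) :
    avg (A ×ˢ B ×ˢ C) (fun p => f (p.1, p.2.1) * g (p.1, p.2.2) * h (p.2.1, p.2.2)) ≤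
      (avg (A ×ˢ B) fun w => f w ^ (5 / 2 : ℝ)) ^ (2 / 5 : ℝ) *
      (avg (A ×ˢ C) fun w => g w ^ (5 / 3 : ℝ)) ^ (3 / 5 : ℝ) *
      (avg (B ×ˢ C) fun w => h w ^ (5 / 2 : ℝ)) ^ (2 / 5 : ℝ) := by
  have h1 := finner B A C (f := fun w => f (w.2, w.1)) (g := h) (h := g) (fun w => hf _) hh hg
  rw [avg_swap A B fun w => f w ^ (5 / 2 : ℝ)] at h1
  rw [← avg_swap12 A B C]
  refine le_trans (le_of_eq (avg_congr' fun q _ => ?_)) (h1.trans (le_of_eq ?_))
  · ring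
  · ring

/-- Finner's inequality, the edge `12` is the special one -/
theorem finner12 (A : Finset X) (B : Finset Y) (C : Finset Z) {f : X × Y → ℝ} {g : X × Z → ℝ}
    {h : Y × Z → ℝ} (hf : ∀ w, 0 ≤ f w) (hg : ∀ w, 0 ≤ g w) (hh : ∀ w, 0 ≤ h w) :
    avg (A ×ˢ B ×ˢ C) (fun p => f (p.1, p.2.1) * g (p.1, p.2.2) * h (p.2.1, p.2.2)) ≤
      (avg (A ×ˢ B) fun w => f w ^ (5 / 3 : ℝ)) ^ (3 / 5 : ℝ) *
      (avg (A ×ˢ C) fun w => g w ^ (5 / 2 : ℝ)) ^ (2 / 5 : ℝ) *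
      (avg (B ×ˢ C) fun w => h w ^ (5 / 2 : ℝ)) ^ (2 / 5 : ℝ) := by
  have h1 := finner13 A C B (f := g) (g := f) (h := fun w => h (w.2, w.1)) hg hf (fun w => hh _)
  rw [avg_swap B C fun w => h w ^ (5 / 2 : ℝ)] at h1
  rw [← avg_swap23 A B C]
  refine le_trans (le_of_eq (avg_congr' fun q _ => ?_)) (h1.trans (le_of_eq ?_))
  · ring
  · ring

end finner'

/-! ### The triangle -/

/-- product of powers of the running maxima -/
def gg (α β : ℝ) (l : ℕ) (v : ℤ × ℤ → ℝ) (w : ℤ × ℤ) : ℝ := m2 l v 0 w ^ α * m4 l v 0 w ^ β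

/-- product of powers of the norms -/
def nn (α β : ℝ) (Q : Finset (ℤ × ℤ)) (v : ℤ × ℤ → ℝ) : ℝ := n2 Q v ^ α * n4 Q v ^ β

theorem gg_nonneg (α β : ℝ) (l : ℕ) (v : ℤ × ℤ → ℝ) (w : ℤ × ℤ) : 0 ≤ gg α β l v w :=
  mul_nonneg (Real.rpow_nonneg (m2_nonneg _ _ _ _) _) (Real.rpow_nonneg (m4_nonneg _ _ _ _) _)

theorem nn_nonneg (α β : ℝ) (Q : Finset (ℤ × ℤ)) (v : ℤ × ℤ → ℝ) : 0 ≤ nn α β Q v :=
  mul_nonneg (Real.rpow_nonneg (n2_nonneg _ _) _) (Real.rpow_nonneg (n4_nonneg _ _) _)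

/-- one edge -/
theorem edge_le {r s : ℝ} (hr : 1 ≤ r) (hrs : r * s = 1) {α β : ℝ} (hα : 0 < α) (hβ : 0 < β)
    (h : r * (α / 2 + β / 4) ≤ 31 / 32) (l : ℕ) (v : ℤ × ℤ → ℝ) (w0 : ℤ × ℤ) :
    (avg (sq l w0) fun w => gg α β l v w ^ r) ^ s ≤ 1153 * nn α β (sq l w0) v := by
  have hr0 : 0 < r := by linarith
  have hs0 : 0 < s := by
    by_contra hs
    have : r * s ≤ 0 := mul_nonpos_of_nonneg_of_nonpos hr0.le (not_lt.1 hs)
    linarith
  have hs1 : s ≤ 1 := by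
    have : s * 1 ≤ s * r := mul_le_mul_of_nonneg_left hr hs0.le
    linarith
  set e : ℝ := 1 - r * (α / 2 + β / 4) with he
  have he0 : 1 / 32 ≤ e := by rw [he]; linarith
  have hep : 0 < e := by linarith
  have h1 := avg_mm_le l v w0 (θ2 := r * α) (θ4 := r * β) (by positivity) (by positivity) hep
    (by rw [he]; ring)
  have hC : 1 + 36 / e ≤ 1153 := by
    have : 36 / e ≤ 1152 := by rw [div_le_iff₀ hep]; linarith
    linarith
  have p := n2_nonneg (sq l w0) v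
  have q := n4_nonneg (sq l w0) v
  have h2 : (avg (sq l w0) fun w => gg α β l v w ^ r) ≤
      1153 * (n2 (sq l w0) v ^ (r * α) * n4 (sq l w0) v ^ (r * β)) := by
    refine le_trans (le_of_eq (avg_congr' fun w _ => ?_)) (h1.trans ?_)
    · unfold gg
      rw [Real.mul_rpow (Real.rpow_nonneg (m2_nonneg _ _ _ _) _)
        (Real.rpow_nonneg (m4_nonneg _ _ _ _) _), ← Real.rpow_mul (m2_nonneg _ _ _ _),
        ← Real.rpow_mul (m4_nonneg _ _ _ _), mul_comm α r, mul_comm β r]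
    · exact mul_le_mul_of_nonneg_right hC (by positivity)
  have h0 : 0 ≤ avg (sq l w0) fun w => gg α β l v w ^ r :=
    avg_nonneg fun w _ => Real.rpow_nonneg (gg_nonneg _ _ _ _ _) _
  refine (Real.rpow_le_rpow h0 h2 hs0.le).trans ?_
  rw [Real.mul_rpow (by norm_num) (by positivity),
    Real.mul_rpow (Real.rpow_nonneg p _) (Real.rpow_nonneg q _), ← Real.rpow_mul p,
    ← Real.rpow_mul q]
  have e1 : r * α * s = α := by rw [mul_right_comm, hrs, one_mul]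
  have e2 : r * β * s = β := by rw [mul_right_comm, hrs, one_mul]
  rw [e1, e2]
  have h3 : (1153 : ℝ) ^ s ≤ 1153 := by
    calc (1153 : ℝ) ^ s ≤ 1153 ^ (1 : ℝ) := Real.rpow_le_rpow_of_exponent_le (by norm_num) hs1
      _ = 1153 := Real.rpow_one _
  exact mul_le_mul_of_nonneg_right h3 (nn_nonneg _ _ _ _)

/-- the product over the three edges of the running maxima -/
def GG (a b c d e f : ℝ) (l : ℕ) (u : Tri) (q : ℤ × ℤ × ℤ) : ℝ :=
  gg a b l u.1 (q.1, q.2.1) * gg c d l u.2.1 (q.1, q.2.2) * gg e f l u.2.2 (q.2.1, q.2.2)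

/-- the product over the three edges of the norms -/
def NNN (a b c d e f : ℝ) (l : ℕ) (u : Tri) (p : ℤ × ℤ × ℤ) : ℝ :=
  nn a b (sq l (p.1, p.2.1)) u.1 * nn c d (sq l (p.1, p.2.2)) u.2.1 *
    nn e f (sq l (p.2.1, p.2.2)) u.2.2

theorem three_mul_le {x y z a b c : ℝ} (hy : 0 ≤ y) (hz : 0 ≤ z) (ha : 0 ≤ a)
    (hb : 0 ≤ b) (h1 : x ≤ 1153 * a) (h2 : y ≤ 1153 * b) (h3 : z ≤ 1153 * c) :
    x * y * z ≤ 1153 ^ 3 * (a * b * c) := by
  calc x * y * z ≤ (1153 * a) * (1153 * b) * (1153 * c) := by gcongr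
    _ = _ := by ring

theorem tri23 {a b c d e f : ℝ} (ha : 0 < a) (hb : 0 < b) (hc : 0 < c) (hd : 0 < d) (he : 0 < e)
    (hf : 0 < f) (h1 : 5 / 2 * (a / 2 + b / 4) ≤ 31 / 32) (h2 : 5 / 2 * (c / 2 + d / 4) ≤ 31 / 32)
    (h3 : 5 / 3 * (e / 2 + f / 4) ≤ 31 / 32) (l : ℕ) (u : Tri) (p : ℤ × ℤ × ℤ) :
    avg (cube3 l p) (GG a b c d e f l u) ≤ 1153 ^ 3 * NNN a b c d e f l u p := by
  have h := finner (iv l p.1) (iv l p.2.1) (iv l p.2.2) (f := gg a b l u.1) (g := gg c d l u.2.1)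
    (h := gg e f l u.2.2) (gg_nonneg _ _ _ _) (gg_nonneg _ _ _ _) (gg_nonneg _ _ _ _)
  refine h.trans (three_mul_le ?_ ?_ ?_ ?_ ?_ ?_ ?_)
  · exact Real.rpow_nonneg (avg_nonneg fun w _ => Real.rpow_nonneg (gg_nonneg _ _ _ _ _) _) _
  · exact Real.rpow_nonneg (avg_nonneg fun w _ => Real.rpow_nonneg (gg_nonneg _ _ _ _ _) _) _
  · exact nn_nonneg _ _ _ _
  · exact nn_nonneg _ _ _ _
  · exact edge_le (by norm_num) (by norm_num) ha hb h1 l u.1 (p.1, p.2.1)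
  · exact edge_le (by norm_num) (by norm_num) hc hd h2 l u.2.1 (p.1, p.2.2)
  · exact edge_le (by norm_num) (by norm_num) he hf h3 l u.2.2 (p.2.1, p.2.2)

theorem tri13 {a b c d e f : ℝ} (ha : 0 < a) (hb : 0 < b) (hc : 0 < c) (hd : 0 < d) (he : 0 < e)
    (hf : 0 < f) (h1 : 5 / 2 * (a / 2 + b / 4) ≤ 31 / 32) (h2 : 5 / 3 * (c / 2 + d / 4) ≤ 31 / 32)
    (h3 : 5 / 2 * (e / 2 + f / 4) ≤ 31 / 32) (l : ℕ) (u : Tri) (p : ℤ × ℤ × ℤ) :
    avg (cube3 l p) (GG a b c d e f l u) ≤ 1153 ^ 3 * NNN a b c d e f l u p := by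
  have h := finner13 (iv l p.1) (iv l p.2.1) (iv l p.2.2) (f := gg a b l u.1)
    (g := gg c d l u.2.1) (h := gg e f l u.2.2) (gg_nonneg _ _ _ _) (gg_nonneg _ _ _ _)
    (gg_nonneg _ _ _ _)
  refine h.trans (three_mul_le ?_ ?_ ?_ ?_ ?_ ?_ ?_)
  · exact Real.rpow_nonneg (avg_nonneg fun w _ => Real.rpow_nonneg (gg_nonneg _ _ _ _ _) _) _
  · exact Real.rpow_nonneg (avg_nonneg fun w _ => Real.rpow_nonneg (gg_nonneg _ _ _ _ _) _) _
  · exact nn_nonneg _ _ _ _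
  · exact nn_nonneg _ _ _ _
  · exact edge_le (by norm_num) (by norm_num) ha hb h1 l u.1 (p.1, p.2.1)
  · exact edge_le (by norm_num) (by norm_num) hc hd h2 l u.2.1 (p.1, p.2.2)
  · exact edge_le (by norm_num) (by norm_num) he hf h3 l u.2.2 (p.2.1, p.2.2)

theorem tri12 {a b c d e f : ℝ} (ha : 0 < a) (hb : 0 < b) (hc : 0 < c) (hd : 0 < d) (he : 0 < e)
    (hf : 0 < f) (h1 : 5 / 3 * (a / 2 + b / 4) ≤ 31 / 32) (h2 : 5 / 2 * (c / 2 + d / 4) ≤ 31 / 32)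
    (h3 : 5 / 2 * (e / 2 + f / 4) ≤ 31 / 32) (l : ℕ) (u : Tri) (p : ℤ × ℤ × ℤ) :
    avg (cube3 l p) (GG a b c d e f l u) ≤ 1153 ^ 3 * NNN a b c d e f l u p := by
  have h := finner12 (iv l p.1) (iv l p.2.1) (iv l p.2.2) (f := gg a b l u.1)
    (g := gg c d l u.2.1) (h := gg e f l u.2.2) (gg_nonneg _ _ _ _) (gg_nonneg _ _ _ _)
    (gg_nonneg _ _ _ _)
  refine h.trans (three_mul_le ?_ ?_ ?_ ?_ ?_ ?_ ?_)
  · exact Real.rpow_nonneg (avg_nonneg fun w _ => Real.rpow_nonneg (gg_nonneg _ _ _ _ _) _) _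
  · exact Real.rpow_nonneg (avg_nonneg fun w _ => Real.rpow_nonneg (gg_nonneg _ _ _ _ _) _) _
  · exact nn_nonneg _ _ _ _
  · exact nn_nonneg _ _ _ _
  · exact edge_le (by norm_num) (by norm_num) ha hb h1 l u.1 (p.1, p.2.1)
  · exact edge_le (by norm_num) (by norm_num) hc hd h2 l u.2.1 (p.1, p.2.2)
  · exact edge_le (by norm_num) (by norm_num) he hf h3 l u.2.2 (p.2.1, p.2.2)

end

end Vale.Agent.P141.H579
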