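import Vale.Agent.P141.H145.StageG
import Vale.Agent.P141.H581.StageX

/-!
# P141, line (A), stack: the stage sum of a family

`H145.stageU` for finite families of forms (for example all `x0`): only the sums over the family
of the pair sums are needed, slack `√(τ / h)`.
-/

namespace Vale.Agent.P141.H579

open Finset Matrix Vale.Agent.P075 Vale.Agent.P141.PL Vale.Agent.P141.PL.H588
open Vale.Agent.P141.PL.H804 Vale.Agent.P141.H958 Vale.Agent.P141.H609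
open Vale.Agent.P141.H505.Skel (RPg)
open Vale.Agent.P141.H145 (UG UG_nonneg UG_cyc RPg_nonneg' RPg_mono UG_A UG_B UG_C UG_tail schedS
  mul_sqrt_div)
open Vale.Agent.P141.H581 (sum_sqrt_le)

noncomputable section

section fam

variable {ι : ℕ → Type} [∀ k, Fintype (ι k)] [∀ k, DecidableEq (ι k)] {J : Type*}

/-- the forms of a family -/
def UF (r : ∀ k, Matrix (ι k) (ι k) ℝ) (X : Finset J) (N : ℕ) (s : J → ℕ → Finset Pt)
    (cA cB cC : ℝ) (FA FB FC : J → ∀ k, Pt → Matrix (ι k) (ι k) ℝ) (a b e : ℕ) : ℝ :=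
  ∑ i ∈ X, UG r N (s i) cA cB cC (FA i) (FB i) (FC i) a b e

/-- the pair sums of a family -/
def RF (r : ∀ k, Matrix (ι k) (ι k) ℝ) (X : Finset J) (N : ℕ) (s : J → ℕ → Finset Pt)
    (x y : ℝ) (F H : J → ∀ k, Pt → Matrix (ι k) (ι k) ℝ) : ℝ :=
  ∑ i ∈ X, RPg r N (s i) x y (F i) (H i)

variable {r : ∀ k, Matrix (ι k) (ι k) ℝ} {X : Finset J} {N : ℕ} {s : J → ℕ → Finset Pt}
  {cA cB cC : ℝ} {FA FB FC F H : J → ∀ k, Pt → Matrix (ι k) (ι k) ℝ}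

theorem RF_nonneg (hr : ∀ k, (r k)ᵀ = r k) {x y : ℝ} : 0 ≤ RF r X N s x y F H :=
  sum_nonneg fun _ _ => RPg_nonneg' hr

theorem RF_mono (hr : ∀ k, (r k)ᵀ = r k) {x x' y y' : ℝ} (hx : 0 < x) (hy : 0 < y)
    (hxx : x ≤ x') (hyy : y ≤ y') : RF r X N s x y F H ≤ RF r X N s x' y' F H :=
  sum_le_sum fun _ _ => RPg_mono hr hx hy hxx hyy

section steps

variable (hr : ∀ k, (r k)ᵀ = r k) (hr2 : ∀ k, r k * r k = 1) (hA : 0 < cA) (hB : 0 < cB)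
  (hC : 0 < cC)
  (capA : ∀ i ∈ X, ∀ k ∈ Icc 1 N, ∀ m ∈ s i k,
    (1 - gramC ((cA ^ 2)⁻¹ * (4 ^ k)⁻¹) (FA i k m)).PosSemidef)
  (capB : ∀ i ∈ X, ∀ k ∈ Icc 1 N, ∀ m ∈ s i k,
    (1 - gramC ((cB ^ 2)⁻¹ * (4 ^ k)⁻¹) (FB i k m)).PosSemidef)
  (capC : ∀ i ∈ X, ∀ k ∈ Icc 1 N, ∀ m ∈ s i k,
    (1 - gramC ((cC ^ 2)⁻¹ * (4 ^ k)⁻¹) (FC i k m)).PosSemidef)

include hr hr2 hA hB hC capA capB capC

theorem UF_A (a b e : ℕ) :
    UF r X N s cA cB cC FA FB FC a b e ≤ UF r X N s cA cB cC FA FB FC (a + 1) b e +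
      6 * ((cA / 2 ^ (a - 1))⁻¹ * √(RF r X N s (cC / 2 ^ (e - 1)) (cA / 2 ^ (a - 1)) FC FA *
        RF r X N s (cA / 2 ^ (a - 1)) (cB / 2 ^ (b - 1)) FA FB)) := by
  have h1 : ∀ i ∈ X, UG r N (s i) cA cB cC (FA i) (FB i) (FC i) a b e ≤
      UG r N (s i) cA cB cC (FA i) (FB i) (FC i) (a + 1) b e + 6 * ((cA / 2 ^ (a - 1))⁻¹ *
        √(RPg r N (s i) (cC / 2 ^ (e - 1)) (cA / 2 ^ (a - 1)) (FC i) (FA i) *
          RPg r N (s i) (cA / 2 ^ (a - 1)) (cB / 2 ^ (b - 1)) (FA i) (FB i))) := fun i hi =>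
    UG_A hr hr2 hA hB hC (capA i hi) (capB i hi) (capC i hi) a b e le_rfl le_rfl
  refine (sum_le_sum h1).trans ?_
  rw [sum_add_distrib, ← mul_sum, ← mul_sum]
  refine add_le_add_right (mul_le_mul_of_nonneg_left (mul_le_mul_of_nonneg_left
    (sum_sqrt_le (fun i => RPg_nonneg' hr) fun i => RPg_nonneg' hr) (by positivity))
      (by norm_num)) _

theorem UF_B (a b e : ℕ) :
    UF r X N s cA cB cC FA FB FC a b e ≤ UF r X N s cA cB cC FA FB FC a (b + 1) e +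
      6 * ((cB / 2 ^ (b - 1))⁻¹ * √(RF r X N s (cA / 2 ^ (a - 1)) (cB / 2 ^ (b - 1)) FA FB *
        RF r X N s (cB / 2 ^ (b - 1)) (cC / 2 ^ (e - 1)) FB FC)) := by
  have h1 : ∀ i ∈ X, UG r N (s i) cA cB cC (FA i) (FB i) (FC i) a b e ≤
      UG r N (s i) cA cB cC (FA i) (FB i) (FC i) a (b + 1) e + 6 * ((cB / 2 ^ (b - 1))⁻¹ *
        √(RPg r N (s i) (cA / 2 ^ (a - 1)) (cB / 2 ^ (b - 1)) (FA i) (FB i) *
          RPg r N (s i) (cB / 2 ^ (b - 1)) (cC / 2 ^ (e - 1)) (FB i) (FC i))) := fun i hi =>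
    UG_B hr hr2 hA hB hC (capA i hi) (capB i hi) (capC i hi) a b e le_rfl le_rfl
  refine (sum_le_sum h1).trans ?_
  rw [sum_add_distrib, ← mul_sum, ← mul_sum]
  refine add_le_add_right (mul_le_mul_of_nonneg_left (mul_le_mul_of_nonneg_left
    (sum_sqrt_le (fun i => RPg_nonneg' hr) fun i => RPg_nonneg' hr) (by positivity))
      (by norm_num)) _

theorem UF_C (a b e : ℕ) :
    UF r X N s cA cB cC FA FB FC a b e ≤ UF r X N s cA cB cC FA FB FC a b (e + 1) +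
      6 * ((cC / 2 ^ (e - 1))⁻¹ * √(RF r X N s (cB / 2 ^ (b - 1)) (cC / 2 ^ (e - 1)) FB FC *
        RF r X N s (cC / 2 ^ (e - 1)) (cA / 2 ^ (a - 1)) FC FA)) := by
  have h1 : ∀ i ∈ X, UG r N (s i) cA cB cC (FA i) (FB i) (FC i) a b e ≤
      UG r N (s i) cA cB cC (FA i) (FB i) (FC i) a b (e + 1) + 6 * ((cC / 2 ^ (e - 1))⁻¹ *
        √(RPg r N (s i) (cB / 2 ^ (b - 1)) (cC / 2 ^ (e - 1)) (FB i) (FC i) *
          RPg r N (s i) (cC / 2 ^ (e - 1)) (cA / 2 ^ (a - 1)) (FC i) (FA i))) := fun i hi =>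
    UG_C hr hr2 hA hB hC (capA i hi) (capB i hi) (capC i hi) a b e le_rfl le_rfl
  refine (sum_le_sum h1).trans ?_
  rw [sum_add_distrib, ← mul_sum, ← mul_sum]
  refine add_le_add_right (mul_le_mul_of_nonneg_left (mul_le_mul_of_nonneg_left
    (sum_sqrt_le (fun i => RPg_nonneg' hr) fun i => RPg_nonneg' hr) (by positivity))
      (by norm_num)) _

theorem UF_tail : ∃ K : ℝ, ∀ a b e : ℕ,
    UF r X N s cA cB cC FA FB FC a b e ≤ K * (2 ^ (a + b + e))⁻¹ := by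
  have h1 : ∀ i : J, ∃ K : ℝ, i ∈ X → ∀ a b e : ℕ,
      UG r N (s i) cA cB cC (FA i) (FB i) (FC i) a b e ≤ K * (2 ^ (a + b + e))⁻¹ := by
    intro i
    by_cases hi : i ∈ X
    · obtain ⟨K, _, hK⟩ := UG_tail (FA := FA i) (FB := FB i) (FC := FC i) hr hr2 hA hB hC
        (capA i hi) (capB i hi) (capC i hi)
      exact ⟨K, fun _ => hK⟩
    · exact ⟨0, fun h => absurd h hi⟩
  choose K hK using h1
  refine ⟨∑ i ∈ X, K i, fun a b e => ?_⟩
  unfold UF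
  rw [sum_mul]
  exact sum_le_sum fun i hi => hK i hi a b e

end steps

/-- **The stage sum of a family.** -/
theorem stageF (hr : ∀ k, (r k)ᵀ = r k) (hr2 : ∀ k, r k * r k = 1) (hA : 0 < cA) (hB : 0 < cB)
    (hC : 0 < cC)
    (capA : ∀ i ∈ X, ∀ k ∈ Icc 1 N, ∀ m ∈ s i k,
      (1 - gramC ((cA ^ 2)⁻¹ * (4 ^ k)⁻¹) (FA i k m)).PosSemidef)
    (capB : ∀ i ∈ X, ∀ k ∈ Icc 1 N, ∀ m ∈ s i k,
      (1 - gramC ((cB ^ 2)⁻¹ * (4 ^ k)⁻¹) (FB i k m)).PosSemidef)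
    (capC : ∀ i ∈ X, ∀ k ∈ Icc 1 N, ∀ m ∈ s i k,
      (1 - gramC ((cC ^ 2)⁻¹ * (4 ^ k)⁻¹) (FC i k m)).PosSemidef)
    {θ τ P₀ PA PB κ' : ℝ} (hθ : 0 < θ) (hτA : cA ≤ τ) (hτB : cB ≤ τ) (hP₀ : 0 ≤ P₀)
    (hPA : 0 ≤ PA) (hPB : 0 ≤ PB) (hκ' : 0 ≤ κ')
    (hAB : ∀ x, 0 < x → x ≤ τ → RF r X N s x x FA FB ≤ P₀ * (x ^ 2 * √(τ / x)))
    (hBC : ∀ x, 0 < x → x ≤ τ → RF r X N s x (θ * x) FB FC ≤ PB * (x ^ 2 * √(τ / x)))
    (hCA : ∀ x, 0 < x → x ≤ τ → RF r X N s (θ * x) x FC FA ≤ PA * (x ^ 2 * √(τ / x)))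
    (hT : ∀ x, θ * τ ≤ x → x ≤ cC → √(RF r X N s cB x FB FC * RF r X N s x cA FC FA) ≤ κ' * x)
    {L₀ : ℕ} (hL : cC / 2 ^ (L₀ - 1) ≤ θ * τ) :
    UF r X N s cA cB cC FA FB FC 0 0 0 ≤
      81 * (√(P₀ * PA) + √(P₀ * PB) + √(PA * PB) / θ) * τ + 6 * κ' * L₀ := by
  obtain ⟨K, hK⟩ := UF_tail (FA := FA) (FB := FB) (FC := FC) hr hr2 hA hB hC capA capB capC
  set κ : ℝ := 6 * (√(P₀ * PA) + √(P₀ * PB) + √(PA * PB) / θ) with hκ
  have τ0 : 0 < τ := hA.trans_le hτA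
  have n1 : 0 ≤ √(P₀ * PA) := Real.sqrt_nonneg _
  have n2 : 0 ≤ √(P₀ * PB) := Real.sqrt_nonneg _
  have n3 : 0 ≤ √(PA * PB) / θ := by positivity
  have κ0 : 0 ≤ κ := by positivity
  have nR : ∀ {x y : ℝ} {F H : J → ∀ k, Pt → Matrix (ι k) (ι k) ℝ}, 0 ≤ RF r X N s x y F H :=
    fun {_ _ _ _} => RF_nonneg hr
  have key : ∀ {q P P' x y : ℝ}, 0 ≤ q → 0 ≤ P → 0 ≤ P' → 0 ≤ x → 0 ≤ y → x ≤ P * q →
      y ≤ P' * q → √(x * y) ≤ √(P * P') * q := by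
    intro q P P' x y hh hP hP' hx0 hy0 hx hy
    have e : √(P * P') * q = √((P * P') * q ^ 2) := by
      rw [Real.sqrt_mul (mul_nonneg hP hP') (q ^ 2), Real.sqrt_sq hh]
    rw [e]
    refine Real.sqrt_le_sqrt ((mul_le_mul hx hy hy0 (by positivity)).trans (le_of_eq ?_))
    ring
  have lvA : ∀ a : ℕ, cA / 2 ^ (a - 1) ≤ cA := fun a => div_le_self hA.le (one_le_pow₀ (by norm_num))
  have lvB : ∀ a : ℕ, cB / 2 ^ (a - 1) ≤ cB := fun a => div_le_self hB.le (one_le_pow₀ (by norm_num))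
  have lvC : ∀ a : ℕ, cC / 2 ^ (a - 1) ≤ cC := fun a => div_le_self hC.le (one_le_pow₀ (by norm_num))
  have main := schedS (f := UF r X N s cA cB cC FA FB FC) (θ := θ) (τ := τ) (κ := κ) (κ' := 6 * κ')
    hA hB hC hθ hτA hτB κ0 (by positivity) hK hL (fun a b e h1 h2 => ?_) (fun a b e h1 h2 => ?_)
    (fun a b e h0 h1 h2 => ?_) (fun a b e h0 => ?_)
  · refine main.trans (le_of_eq ?_)
    rw [hκ]
    ring
  · set h := cA / 2 ^ (a - 1) with hh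
    have ph : 0 < h := by positivity
    have pB : 0 < cB / 2 ^ (b - 1) := by positivity
    have pC : 0 < cC / 2 ^ (e - 1) := by positivity
    have hτ : h ≤ τ := (lvA a).trans hτA
    have r1 : RF r X N s (cC / 2 ^ (e - 1)) h FC FA ≤ PA * (h ^ 2 * √(τ / h)) :=
      (RF_mono hr pC ph h2 le_rfl).trans (hCA h ph hτ)
    have r2 : RF r X N s h (cB / 2 ^ (b - 1)) FA FB ≤ P₀ * (h ^ 2 * √(τ / h)) :=
      (RF_mono hr ph pB le_rfl h1).trans (hAB h ph hτ)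
    refine (UF_A hr hr2 hA hB hC capA capB capC a b e).trans (add_le_add le_rfl ?_)
    rw [← hh]
    have k1 := key (by positivity) hPA hP₀ nR nR r1 r2
    rw [mul_comm PA P₀] at k1
    have k2 := mul_le_mul_of_nonneg_left k1 (by positivity : 0 ≤ 6 * h⁻¹)
    have k3 : 6 * h⁻¹ * (√(P₀ * PA) * (h ^ 2 * √(τ / h))) = 6 * √(P₀ * PA) * (h * √(τ / h)) := by
      field_simp
    rw [k3, mul_sqrt_div ph τ0.le] at k2
    have k4 : 6 * √(P₀ * PA) * √(τ * h) ≤ κ * √(τ * h) := by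
      refine mul_le_mul_of_nonneg_right ?_ (Real.sqrt_nonneg _)
      rw [hκ]
      linarith
    linarith
  · set h := cB / 2 ^ (b - 1) with hh
    have ph : 0 < h := by positivity
    have pA : 0 < cA / 2 ^ (a - 1) := by positivity
    have pC : 0 < cC / 2 ^ (e - 1) := by positivity
    have hτ : h ≤ τ := (lvB b).trans hτB
    have r1 : RF r X N s (cA / 2 ^ (a - 1)) h FA FB ≤ P₀ * (h ^ 2 * √(τ / h)) :=
      (RF_mono hr pA ph h1 le_rfl).trans (hAB h ph hτ)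
    have r2 : RF r X N s h (cC / 2 ^ (e - 1)) FB FC ≤ PB * (h ^ 2 * √(τ / h)) :=
      (RF_mono hr ph pC le_rfl h2).trans (hBC h ph hτ)
    refine (UF_B hr hr2 hA hB hC capA capB capC a b e).trans (add_le_add le_rfl ?_)
    rw [← hh]
    have k1 := key (by positivity) hP₀ hPB nR nR r1 r2
    have k2 := mul_le_mul_of_nonneg_left k1 (by positivity : 0 ≤ 6 * h⁻¹)
    have k3 : 6 * h⁻¹ * (√(P₀ * PB) * (h ^ 2 * √(τ / h))) = 6 * √(P₀ * PB) * (h * √(τ / h)) := by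
      field_simp
    rw [k3, mul_sqrt_div ph τ0.le] at k2
    have k4 : 6 * √(P₀ * PB) * √(τ * h) ≤ κ * √(τ * h) := by
      refine mul_le_mul_of_nonneg_right ?_ (Real.sqrt_nonneg _)
      rw [hκ]
      linarith
    linarith
  · set x := cC / 2 ^ (e - 1) with hx
    have px : 0 < x := by positivity
    set h := x / θ with hh
    have ph : 0 < h := by positivity
    have ex : x = θ * h := by rw [hh]; field_simp
    have hτ : h ≤ τ := by rw [hh, div_le_iff₀ hθ]; linarith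
    have pA : 0 < cA / 2 ^ (a - 1) := by positivity
    have pB : 0 < cB / 2 ^ (b - 1) := by positivity
    have g1 : cA / 2 ^ (a - 1) ≤ h := by rw [hh, le_div_iff₀ hθ]; linarith
    have g2 : cB / 2 ^ (b - 1) ≤ h := by rw [hh, le_div_iff₀ hθ]; linarith
    have r1 : RF r X N s (cB / 2 ^ (b - 1)) x FB FC ≤ PB * (h ^ 2 * √(τ / h)) :=
      (RF_mono hr pB px g2 ex.le).trans (hBC h ph hτ)
    have r2 : RF r X N s x (cA / 2 ^ (a - 1)) FC FA ≤ PA * (h ^ 2 * √(τ / h)) :=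
      (RF_mono hr px pA ex.le g1).trans (hCA h ph hτ)
    refine (UF_C hr hr2 hA hB hC capA capB capC a b e).trans (add_le_add le_rfl ?_)
    rw [← hx]
    have k1 := key (by positivity) hPB hPA nR nR r1 r2
    rw [mul_comm PB PA] at k1
    have k2 := mul_le_mul_of_nonneg_left k1 (by positivity : 0 ≤ 6 * x⁻¹)
    have k3 : 6 * x⁻¹ * (√(PA * PB) * (h ^ 2 * √(τ / h))) =
        6 * (√(PA * PB) / θ) * (h * √(τ / h)) := by
      rw [ex]
      field_simp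
    rw [k3, mul_sqrt_div ph τ0.le] at k2
    have e5 : τ / θ * x = τ * h := by rw [hh]; ring
    rw [e5]
    have k4 : 6 * (√(PA * PB) / θ) * √(τ * h) ≤ κ * √(τ * h) := by
      refine mul_le_mul_of_nonneg_right ?_ (Real.sqrt_nonneg _)
      rw [hκ]
      linarith
    linarith
  · set x := cC / 2 ^ (e - 1) with hx
    have px : 0 < x := by positivity
    have pA : 0 < cA / 2 ^ (a - 1) := by positivity
    have pB : 0 < cB / 2 ^ (b - 1) := by positivity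
    refine (UF_C hr hr2 hA hB hC capA capB capC a b e).trans (add_le_add le_rfl ?_)
    rw [← hx]
    have r1 : RF r X N s (cB / 2 ^ (b - 1)) x FB FC ≤ RF r X N s cB x FB FC :=
      RF_mono hr pB px (lvB b) le_rfl
    have r2 : RF r X N s x (cA / 2 ^ (a - 1)) FC FA ≤ RF r X N s x cA FC FA :=
      RF_mono hr px pA le_rfl (lvA a)
    have k1 : √(RF r X N s (cB / 2 ^ (b - 1)) x FB FC * RF r X N s x (cA / 2 ^ (a - 1)) FC FA) ≤
        κ' * x := (Real.sqrt_le_sqrt (mul_le_mul r1 r2 nR nR)).trans (hT x h0.le (lvC e))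
    have k2 := mul_le_mul_of_nonneg_left k1 (by positivity : 0 ≤ 6 * x⁻¹)
    have k3 : 6 * x⁻¹ * (κ' * x) = 6 * κ' := by field_simp
    rw [k3] at k2
    linarith

end fam

end

end Vale.Agent.P141.H579
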